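import Vale.Agent.P183SB.Tor
import Vale.Agent.P183CR.Abs

/-!
P183: the classical datum of a form.
-/

namespace Vale.Agent.P183SB

open Module Matrix Subgroup Vale.Agent.P183CF Vale.Agent.P183CF.Form Vale.Agent.P183M
  Vale.Agent.P240.H195 Vale.Agent.P183CR

universe u

variable {F : Type} {V : Type u} [Field F] [AddCommGroup V] [Module F V] {φ : Form F V}

variable (φ) in
/-- the fixed field of `σ` -/
def F0 : Subfield F := RingHom.eqLocusField (φ.σ : F →+* F) (RingHom.id F)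

namespace Fr

variable {d : ℕ} (fr : Fr φ d)

/-- the matrix representation -/
noncomputable def mat : φ.EW ⊤ →* Matrix (Fin d) (Fin d) F where
  toFun g := LinearMap.toMatrix fr.w fr.w (g.1 : V →ₗ[F] V)
  map_one' := LinearMap.toMatrix_id _
  map_mul' g h := LinearMap.toMatrix_mul fr.w (g.1 : V →ₗ[F] V) h.1

lemma c_surj (x : Fin d → F) : ∃ y, x = fr.c y :=
  ⟨fr.w.equivFun.symm x, (fr.w.equivFun.apply_symm_apply x).symm⟩

lemma symm_c (y : V) : fr.w.equivFun.symm (fr.c y) = y := fr.w.equivFun.symm_apply_apply y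

lemma mat_mulVec (g : φ.EW ⊤) (y : V) : fr.mat g *ᵥ fr.c y = fr.c (g.1 y) :=
  LinearMap.toMatrix_mulVec_repr fr.w fr.w (g.1 : V →ₗ[F] V) y

lemma mat_apply (g : φ.EW ⊤) (i j : Fin d) : fr.mat g i j = fr.c (g.1 (fr.w j)) i :=
  LinearMap.toMatrix_apply _ _ _ _ _

lemma ee_eq (a : Fin d) : (ee a : Fin d → F) = fr.c (fr.w a) := by
  ext i
  rw [c_w, ee, Pi.single_apply]
  simp only [eq_comm]

lemma c_smul' (t : F) (y : V) : t • fr.c y = fr.c (t • y) := funext fun a => (fr.c_smul t y a).symm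

lemma c_add' (x y : V) : fr.c x + fr.c y = fr.c (x + y) := funext fun a => (fr.c_add x y a).symm

lemma c_inj {x y : V} : fr.c x = fr.c y ↔ x = y :=
  ⟨fun h => fr.ext_c (congrFun h), fun h => h ▸ rfl⟩

lemma mat_ext {M M' : Matrix (Fin d) (Fin d) F} (h : ∀ y, M *ᵥ fr.c y = M' *ᵥ fr.c y) : M = M' := by
  refine Matrix.toLin'.injective (LinearMap.ext fun x => ?_)
  obtain ⟨y, rfl⟩ := fr.c_surj x
  exact h y

lemma mat_inj : Function.Injective fr.mat := fun _ _ e =>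
  Subtype.ext (LinearEquiv.toLinearMap_injective ((LinearMap.toMatrix fr.w fr.w).injective e))

variable [FiniteDimensional F V]

/-- the datum -/
noncomputable def dat (z : Fin d) (n0 : φ.EW ⊤) (x : F0 φ → φ.EW ⊤)
    (N0 : Matrix (Fin d) (Fin d) F) : Dat (φ.EW ⊤) F (F0 φ) d where
  ρ := fr.mat
  σ := φ.σ
  J := Matrix.of fun i j => φ.b (fr.w i) (fr.w j)
  sing := fun x => φ.Q (fr.w.equivFun.symm x) = 0
  B := fr.B.subgroupOf _
  N := fr.N.subgroupOf _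
  U := fr.U.subgroupOf _
  nd := fun i => ⟨fr.nd i, (nd_spec i).1⟩
  rk := fr.m
  m := fr.m
  z := z
  ι := (F0 φ).subtype
  x := x
  N0 := N0
  n0 := n0
  lty := False
  dty := fr.dty
  quad := (2 : F) = 0 ∧ φ.Λ = ⊥

variable {fr} {z : Fin d} {n0 : φ.EW ⊤} {x : F0 φ → φ.EW ⊤} {N0 : Matrix (Fin d) (Fin d) F}

lemma J_mulVec (y : V) (a : Fin d) : ((fr.dat z n0 x N0).J *ᵥ fr.c y) a = φ.b (fr.w a) y := by
  conv_rhs => rw [← fr.sum_c y]
  simp [dat, mulVec, dotProduct, mul_comm]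

lemma dat_β (y y' : V) : (fr.dat z n0 x N0).β (fr.c y) (fr.c y') = φ.b y y' := by
  conv_rhs => rw [← fr.sum_c y]
  simp only [Dat.β, dotProduct, J_mulVec, map_sum, LinearMap.sum_apply, b_smul_left]
  rfl

lemma dat_sing (y : V) : (fr.dat z n0 x N0).sing (fr.c y) ↔ φ.Q y = 0 := by
  simp only [dat, symm_c]

lemma dat_ro (u v y : V) :
    (fr.dat z n0 x N0).ro (fr.c u) (fr.c v) *ᵥ fr.c y = fr.c (φ.b v y • u) := by
  rw [Dat.ro, vecMulVec_mulVec, ← dotProduct_mulVec, ← c_smul', op_smul_eq_smul]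
  exact congrArg (· • fr.c u) (dat_β v y)

lemma dat_mon {π : Equiv.Perm (Fin d)} {g : φ.EW ⊤} (h : fr.Mo π g.1) :
    (fr.dat z n0 x N0).Mon (fr.mat g) π := by
  refine ⟨h.sg, fun a ha => ?_, fun a i ha hi => ?_⟩
  · obtain ⟨t, ht, e⟩ := h.mon a ha
    exact ⟨Units.mk0 t ht, by rw [fr.ee_eq, fr.ee_eq, mat_mulVec, e, c_smul', Units.val_mk0]⟩
  · rw [mat_apply]
    exact h.map_V0 (w_mem.2 ha) i hi

lemma dat_up {g : φ.EW ⊤} : (fr.dat z n0 x N0).Up (fr.mat g) ↔ fr.Uni fr.lv g.1 := by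
  rw [uni_iff]
  constructor
  · rintro ⟨⟨h1, h2⟩, h3⟩ j i hi
    rw [c_sub, ← mat_apply]
    rcases lt_trichotomy i j with h | rfl | h
    · rw [c_ne h.ne', h3 i j _ _ h.ne, sub_zero] <;>
        exact by_contra fun h' => hi (lv_lt.2 ⟨h, fun h'' => h' (by tauto)⟩)
    · rw [h2, c_self, sub_self]
    · rw [c_ne h.ne, h1 i j h, sub_zero]
  · intro h
    have key : ∀ i j, i ≠ j → ¬ fr.lv i < fr.lv j → fr.mat g i j = 0 := fun i j h1 h2 => by
      simpa [c_ne h1.symm, mat_apply] using h j i h2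
    exact ⟨⟨fun i j hij => key i j hij.ne' fun h' => absurd (lv_lt.1 h').1 hij.not_gt,
      fun i => by rw [mat_apply, (uni_iff.2 h).c_self]⟩,
      fun i j hi hj hij => key i j hij fun h' => (lv_lt.1 h').2 ⟨hi, hj⟩⟩

lemma dat_S : (fr.dat z n0 x N0).S = {s : φ.EW ⊤ | s.1 ∈ fr.S} := by
  ext s
  simp only [Dat.S, S, dat, Set.mem_ofPred_eq, Subtype.ext_iff]

lemma rho_isP (hm : 2 ≤ fr.m) {p : ℕ} (hp : p.Prime) [CharP F p] {y y' : V} {l : F}
    (h : φ.RD y y' l) : ∃ k : ℕ, rho h ^ p ^ k = 1 := by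
  obtain ⟨g, -, h1⟩ := rho_conj_U hm h
  obtain ⟨k, hk⟩ := h1.2.isP hp
  refine ⟨k, ?_⟩
  rw [show rho h = g * (g⁻¹ * rho h * g) * g⁻¹ by group, conj_pow, hk, mul_one, mul_inv_cancel]

variable [Finite F]

lemma normalClosure_top (hd : 19 ≤ d) {X : Set (φ.EW ⊤)} {k : φ.EW ⊤} (hk : k ∈ X) {a : Fin d}
    (h1 : k.1 (fr.w a) = fr.w a) (h2 : k.1 ≠ 1) : normalClosure X = ⊤ := by
  refine eq_top_iff.2 fun ⟨g, hg⟩ _ => ?_
  obtain ⟨g', h3, rfl⟩ : g ∈ (normalClosure X).map (φ.EW ⊤).subtype := by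
    refine EW_le_of_normal φ.nd_top (by rwa [finrank_top, fr.finrank_eq]) ?_
      (mem_map_of_mem _ (subset_normalClosure hk)) (EW_le_Isom _ k.2) (fun _ _ => trivial) ?_ hg
    · rintro g hg _ ⟨y, hy, rfl⟩
      exact ⟨_, normalClosure_normal.conj_mem y hy ⟨g, hg⟩, rfl⟩
    · rintro ⟨c, hc⟩
      have h3 := congrArg (fun y => fr.c y a) (h1.symm.trans (hc _ trivial))
      simp only [c_self, c_smul, mul_one] at h3
      exact h2 (LinearEquiv.ext fun y => by simpa [← h3] using hc y trivial)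
  exact h3

lemma span_mat (hd : 11 ≤ d) : Submodule.span F (Set.range fr.mat) = ⊤ := by
  let ρ : Representation F (φ.EW ⊤) V :=
    LinearEquiv.automorphismGroup.toLinearMapMonoidHom.comp (φ.EW ⊤).subtype
  have hd' : 9 ≤ finrank F (⊤ : Submodule F V) := by
    rw [finrank_top, fr.finrank_eq]
    omega
  have h1 : Irr ρ := ⟨⟨_, _, fr.w.ne_zero ⟨0, by omega⟩⟩, fun W hW => by
    refine or_iff_not_imp_left.2 fun h => eq_top_iff.2 fun y _ => ?_
    obtain ⟨v, hv, h0⟩ := W.ne_bot_iff.1 h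
    exact le_of_inv φ.nd_top hd' W.toAddSubgroup (fun g hg => hW ⟨g, hg⟩) hv (by simpa using h0)
      y trivial⟩
  have h2 := (h1.absIrr_of_scalar fun f hf => by
    obtain ⟨c, hc⟩ := scalar_of_comm φ.nd_top hd' f.toAddMonoidHom fun g hg => hf ⟨g, hg⟩
    exact ⟨c, fun y => hc y trivial⟩).2
  have h3 := congrArg (Submodule.map (LinearMap.toMatrix fr.w fr.w).toLinearMap) h2
  rwa [Submodule.map_span, ← Set.range_comp, Submodule.map_top, LinearEquiv.range] at h3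

/-- the long root subgroup in the centre of `U` -/
lemma exists_x (hd : 19 ≤ d) (hz : z.val = 0) : ∃ (x : F0 φ → φ.EW ⊤) (N0 : Matrix (Fin d) (Fin d) F),
    (∀ t, (x t).1 ∈ fr.U) ∧ (∀ t, ∀ u ∈ fr.U, u * (x t).1 = (x t).1 * u) ∧
    (∀ t, fr.mat (x t) = 1 + t.1 • N0) ∧ normalClosure (Set.range x) = ⊤ ∧
    ((φ.Λ ≠ ⊥ ∧ ∃ c : Fˣ, N0 = (c : F) • (fr.dat z n0 x N0).ro (ee z) (ee z)) ∨
      (φ.Λ = ⊥ ∧ ∃ (c : Fˣ) (y : Fin d), y.val = 1 ∧ N0 = (c : F) •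
        ((fr.dat z n0 x N0).ro (ee z) (ee y) - (fr.dat z n0 x N0).ro (ee y) (ee z)))) := by
  have hm : 2 ≤ fr.m := two_le (by omega)
  have hz' : ¬ Md fr.m z := not_md (by omega)
  have hU : ∀ u ∈ fr.U, u (fr.w z) = fr.w z := fun u hu => sub_eq_zero.1
    (eq_zero_of_Cs (uni_iff.1 hu.2 z) fun i => by rw [lv_of_not hz', hz]; omega)
  have hmem : ∀ {v l} (h : φ.RD (fr.w z) v l), rho h ∈ fr.U := fun {v l} h => by
    have h' : φ.RD ((1 : F) • fr.w z) v l := by rwa [one_smul]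
    rw [rho_congr h h' (one_smul _ _).symm rfl rfl]
    exact rho_mem_U hz (by omega) h'
  by_cases hΛ : φ.Λ = ⊥
  · let y : Fin d := ⟨1, by omega⟩
    have hy : y.val = 1 := rfl
    have hy' : ¬ Md fr.m y := not_md (by omega)
    have h1 : ∀ t : F, φ.RD (fr.w z) (t • fr.w y) 0 := fun t => ⟨fr.sing z hz', by
      rw [map_smul, b_ww hz' (ne_rev_of_lt (fr := fr) (by omega) (by omega)), smul_zero], by
      rw [φ.Q_smul_zero (fr.sing y hy'), map_zero]⟩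
    refine ⟨fun t => ⟨rho (h1 t), rho_EW _ trivial trivial⟩, ((-1 : Fˣ) : F) •
      ((fr.dat z n0 1 0).ro (ee z) (ee y) - (fr.dat z n0 1 0).ro (ee y) (ee z)), fun t => hmem (h1 t),
      fun t u hu => ?_, fun t => fr.mat_ext fun v => ?_, normalClosure_top hd ⟨1, rfl⟩
      (rho_fix (h1 1) (h1 1).uu (h1 1).vu) fun e => ?_, Or.inr ⟨hΛ, -1, y, rfl, rfl⟩⟩
    · have h2 : u (fr.w y) = fr.w y + fr.c (u (fr.w y) - fr.w y) z • fr.w z := by
        rw [← eq_smul_of_Cs (Cs_mono (fun i hi => ?_) (uni_iff.1 hu.2 y)), add_sub_cancel]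
        have := (lv_lt.1 hi).1
        rw [Fin.lt_def] at this
        exact Fin.ext (by omega)
      rw [← mul_inv_eq_iff_eq_mul, rho_conj _ (EW_le_Isom _ hu.1)]
      refine LinearEquiv.ext fun v => ?_
      rw [rho_apply, rho_apply, hU u hu, map_smul, h2]
      simp only [b_smul_left, map_add, LinearMap.add_apply, σ_of_bot hΛ, ε_of_bot hΛ]
      match_scalars <;> ring
    · rw [mat_mulVec, fr.ee_eq, fr.ee_eq, add_mulVec, one_mulVec, smul_mulVec, smul_mulVec,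
        sub_mulVec, dat_ro, dat_ro]
      ext i
      simp [rho_apply, σ_of_bot hΛ, ε_of_bot hΛ]
      ring
    · have h2 := congrArg (fun g : V ≃ₗ[F] V => fr.c (g (fr.w z.rev)) y) e
      have h3 : z ≠ y := fun e => by rw [e] at hz; omega
      simp [rho_apply, b_w hz', c_ne h3, J_ne hz'] at h2
  · obtain ⟨⟨l, hl⟩, hl0⟩ := AddSubgroup.ne_bot_iff_exists_ne_zero.1 hΛ
    have hl1 : l ≠ 0 := fun e => hl0 (Subtype.ext e)
    have h1 : ∀ t : F0 φ, φ.RD (fr.w z) 0 (t.1 * l) := fun t => ⟨fr.sing z hz', map_zero _, by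
      rw [Q_zero, eq_comm, md_eq_zero]
      by_cases hσ : ∃ s, φ.σ s ≠ s
      · refine φ.mem_Λ_of_ne hσ ?_
        rw [map_mul, show φ.σ t.1 = t.1 from t.2]
        linear_combination t.1 * φ.Λ_max l hl
      · push Not at hσ
        exact mem_Λ_of_eq hσ hΛ _⟩
    refine ⟨fun t => ⟨rho (h1 t), rho_EW _ trivial trivial⟩,
      (-(φ.ε * l)) • (fr.dat z n0 1 0).ro (ee z) (ee z), fun t => hmem (h1 t),
      fun t u hu => ?_, fun t => fr.mat_ext fun v => ?_, normalClosure_top hd ⟨1, rfl⟩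
      (rho_fix (h1 1) (h1 1).uu (h1 1).vu) fun e => ?_,
      Or.inl ⟨hΛ, Units.mk0 _ (neg_ne_zero.2 (mul_ne_zero φ.ε_ne hl1)), rfl⟩⟩
    · rw [← mul_inv_eq_iff_eq_mul, rho_conj _ (EW_le_Isom _ hu.1)]
      exact rho_congr _ (h1 t) (hU u hu) (map_zero _) rfl
    · rw [mat_mulVec, fr.ee_eq, add_mulVec, one_mulVec, smul_mulVec, smul_mulVec, dat_ro]
      ext i
      simp [rho_apply]
      ring
    · have h2 := congrArg (fun g : V ≃ₗ[F] V => fr.c (g (fr.w z.rev)) z) e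
      simp [rho_apply, b_w hz', J_ne hz', φ.ε_ne, hl1] at h2

lemma norm_mat (hd : 11 ≤ d) {h h' : Matrix (Fin d) (Fin d) F} (h1 : h * h' = 1)
    (h2 : h' * h = 1) (h3 : ∀ y y', (fr.dat z n0 x N0).β (h *ᵥ y) (h *ᵥ y') =
      (fr.dat z n0 x N0).β y y')
    (h4 : ∀ y, (fr.dat z n0 x N0).sing y → (fr.dat z n0 x N0).sing (h *ᵥ y)) (g : φ.EW ⊤) :
    ∃ g', fr.mat g' = h * fr.mat g * h' := by
  let k : V ≃ₗ[F] V := LinearEquiv.ofLinearMap (toLin fr.w fr.w h) (toLin fr.w fr.w h')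
    (by rw [← toLin_mul, h1, toLin_one]) (by rw [← toLin_mul, h2, toLin_one])
  have key : ∀ (M : Matrix (Fin d) (Fin d) F) y, M *ᵥ fr.c y = fr.c (toLin fr.w fr.w M y) :=
    fun M y => by
      conv_lhs => rw [← LinearMap.toMatrix_toLin fr.w fr.w M]
      exact LinearMap.toMatrix_mulVec_repr _ _ _ y
  have hk : ∀ y, h *ᵥ fr.c y = fr.c (k y) := key h
  have hk' : ∀ y, h' *ᵥ fr.c y = fr.c (k⁻¹ y) := key h'
  have hb : ∀ y y', φ.b (k y) (k y') = φ.b y y' := fun y y' => by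
    have := h3 (fr.c y) (fr.c y')
    rwa [hk, hk, dat_β, dat_β] at this
  have hQ : ∀ y, φ.Q y = 0 → φ.Q (k y) = 0 := fun y hy => by
    have := h4 _ ((dat_sing y).2 hy)
    rwa [hk, dat_sing] at this
  have hI : k ∈ φ.Isom := ⟨hb, fun y => by
    obtain ⟨a, -, c, -, -, -, ha, hc, rfl⟩ := φ.nd_top.sum_sing
      (by rw [finrank_top, fr.finrank_eq]; omega) (w := y) trivial
    rw [map_add, Q_add, Q_add, hb, hQ a ha, hQ c hc, ha, hc]⟩
  refine ⟨⟨_, EW.conj' hI (fun _ _ => trivial) g.2⟩, fr.mat_ext fun y => ?_⟩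
  rw [← mulVec_mulVec, ← mulVec_mulVec, hk', mat_mulVec, mat_mulVec, hk]
  rfl

omit [Finite F] in
lemma rootel (hm : 2 ≤ fr.m) {p : ℕ} (hp : p.Prime) [CharP F p] {a b : Fin d} (h : fr.Ro a b)
    (hb : b ≠ a.rev) (t : F) : ∃ (g : φ.EW ⊤) (t' : F), IsP p g ∧
      fr.mat g = 1 + single a b t + single b.rev a.rev t' := by
  obtain ⟨y, hy, e⟩ := rt_val h hb t
  refine ⟨⟨y, rt_EW h hy⟩, fr.c (y (fr.w a.rev)) b.rev, ?_, ?_⟩
  · obtain ⟨v, l, h1, rfl, -⟩ := hy h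
    obtain ⟨k, hk⟩ := rho_isP hm hp h1
    exact ⟨k, Subtype.ext hk⟩
  ext i j
  rw [mat_apply, Matrix.add_apply, Matrix.add_apply, Matrix.one_apply, single_apply, single_apply]
  by_cases h1 : b = j
  · subst h1
    simp [e, c_w, hb.symm, eq_comm]
  by_cases h2 : b.rev = i ∧ a.rev = j
  · obtain ⟨rfl, rfl⟩ := h2
    simp [h1, h.ne.symm]
  · have h3 := rt_pat h hy j i (by
      rintro (h' | h' | h')
      exacts [h1 h'.2.symm, h2 ⟨h'.1.symm, h'.2.symm⟩, hb h'.1])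
    rw [c_sub, sub_eq_zero, c_w] at h3
    rw [if_neg h2]
    simp [h1, h3, eq_comm]

omit [Finite F] [FiniteDimensional F V] in
lemma map_Co (g : φ.EW ⊤) (A : Fin d → Prop) {E : Submodule F (Fin d → F)}
    (h : E.comap fr.w.equivFun.toLinearMap = (fr.Cs A).map (g.1 : V →ₗ[F] V)) :
    E = (Co F A).map (Matrix.toLin' (fr.mat g)) := by
  ext y
  obtain ⟨y, rfl⟩ := fr.c_surj y
  refine (SetLike.ext_iff.1 h y).trans ⟨?_, ?_⟩
  · rintro ⟨v, hv, rfl⟩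
    exact ⟨fr.c v, hv, fr.mat_mulVec g v⟩
  · rintro ⟨v, hv, e⟩
    obtain ⟨v, rfl⟩ := fr.c_surj v
    exact ⟨v, hv, fr.c_inj.1 ((fr.mat_mulVec g v).symm.trans e)⟩

/-- **The datum of a form satisfies the axioms.** -/
theorem cdf (hd : 19 ≤ d) {p : ℕ} (hp : p.Prime) [CharP F p] :
    ∃ z n0 x N0, CDF p (fr.dat z n0 x N0) := by
  have hd' : 11 ≤ d := by omega
  have hm : 2 ≤ fr.m := two_le hd'
  let z : Fin d := ⟨0, by omega⟩
  have hz : ¬ Md fr.m z := not_md (by simp only [z]; omega)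
  obtain ⟨n, hn, π0, hπ0, hπ0'⟩ := exists_n0 hm
  let n0 : φ.EW ⊤ := ⟨n, (N_le_Mn hm hn).1⟩
  obtain ⟨x, N0, x1, x2, x3, x4, x5⟩ := exists_x (fr := fr) (n0 := n0) (z := z) hd rfl
  refine ⟨z, n0, x, N0, ?_⟩
  have hs : SBA p (fr.dat z n0 x N0).B (fr.dat z n0 x N0).N (fr.dat z n0 x N0).U
      (fr.dat z n0 x N0).S := dat_S (fr := fr) ▸ sba hd' hp
  have hwp : ∀ {a b π}, fr.Ro a b → (b = a.rev → ¬ fr.dty) → fr.Pm a b π →
      ∃ n ∈ (fr.dat z n0 x N0).N, (fr.dat z n0 x N0).Mon (fr.mat n) π := fun h h1 h2 => by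
    obtain ⟨n, hn, π', h3, h4⟩ := wp_all hm h h1
    exact ⟨⟨n, (N_le_Mn hm hn).1⟩, hn, dat_mon (h3.unique h2 ▸ h4)⟩
  refine
    { sba := hs
      long := hs.toSBP.long_of_opp hn fun y hy h3 => Subtype.ext (eq_one_of_opp hπ0.sg hπ0'
        (EW_le_Isom _ y.2) hy.2 (hπ0.uni_conj_iff.1 h3.2))
      char := inferInstance
      red := inferInstance
      sq := φ.σσ
      fix := fun r => ⟨fun h => ⟨⟨r, h⟩, rfl⟩, fun ⟨t, h⟩ => h ▸ t.2⟩
      tr := φ.exists_tr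
      eps := ⟨φ.ε, φ.εε, fun y y' => ?_⟩
      nondeg := ?_
      inv := fun g y y' => ?_
      sing_smul := fun c y h => ?_
      sing_add := fun y y' h h' h1 => ?_
      sing_self := fun y h => ?_
      sing_inv := fun g y h => ?_
      sing_of := fun hq y h => ?_
      quadr := fun hq => ⟨hq.1, Field.toIsField F, σ_of_bot hq.2,
        fun y => φ.q (fr.w.equivFun.symm y), fun y y' => ?_, fun c y => ?_,
        fun y => Q_zero_iff hq.2, fun g y => ?_⟩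
      z0 := rfl
      le_d := fr.le
      d_le := fr.d_le
      d_le' := d_le'
      sing_ee := fun a ha => by rw [fr.ee_eq, dat_sing]; exact fr.sing a ha
      J_zero := fr.orth
      J_unit := fun a ha => (J_ne ha).isUnit
      up := fun u hu => dat_up.2 hu.2
      pinj := fun _ _ _ _ e => fr.mat_inj e
      pts := fun y h => ?_
      x_mem := x1
      x_comm := fun t u hu => Subtype.ext (x2 t u hu)
      x_eq := x3
      x_gen := x4
      shape := x5.imp (fun h => ⟨fun h' => h.1 h'.2, h.2⟩) fun h => ⟨σ_of_bot h.1, h.2⟩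
      span := span_mat hd'
      norm := fun h h' => norm_mat hd'
      rootel := fun a b ha hb h1 h2 => rootel hm hp ⟨ha, hb, h1⟩ (mt eq_rev_comm.1 h2)
      refl := fun a b ha hb h1 h2 => hwp ⟨ha, hb, h1⟩ (fun e => absurd (eq_rev_comm.1 e) h2)
        (pm_rf ⟨ha, hb, h1⟩ (mt eq_rev_comm.1 h2))
      tor := fun e he g hg => ?_
      surj := fun c => ?_
      nl := id
      rk_eq := rfl
      up' := fun g _ h => ⟨g.2, dat_up.1 h⟩
      mon := fun n hn => (N_le_Mn hm hn).2.imp fun _ => dat_mon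
      mon_T := fun t h1 h2 => dat_mon (mem_T hm h1 h2).2
      mon_nd := fun a b h1 h2 => ?_
      mon_last := fun h a h1 => dat_mon (Nd.mo (Or.inr (Or.inl ⟨h, h1, rfl, rfl⟩))
        (pm_swap (not_md ((Nat.lt_succ_self _).trans_eq h1))))
      mon_last' := fun h a b h1 h2 => ?_
      sign := fun h a ha => hwp (ro_rev ha) (fun _ => h) (pm_swap ha)
      mon_n0 := ⟨π0, dat_mon hπ0, fun a h1 h2 => hπ0' a ⟨h1, h2⟩⟩
      dzero := fun h => ⟨h.1, fun u hu a ha => (fr.mat_apply _ _ _).trans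
        (dzero h (EW_le_Isom _ u.2) hu.2 ha)⟩
      gen := fun g hg => ?_
      witt := fun E hE => ?_ }
  · obtain ⟨y, rfl⟩ := fr.c_surj y
    obtain ⟨y', rfl⟩ := fr.c_surj y'
    rw [dat_β, dat_β]
    exact φ.herm y y'
  · refine isUnit_iff_ne_zero.2 fun h => ?_
    obtain ⟨y, h0, h1⟩ := Matrix.exists_mulVec_eq_zero_iff.2 h
    obtain ⟨y, rfl⟩ := fr.c_surj y
    obtain rfl : y = 0 := φ.nondeg y fun y' => φ.b_symm_zero (by
      rw [← dat_β (fr := fr) (z := z) (n0 := n0) (x := x) (N0 := N0), Dat.β, h1, dotProduct_zero])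
    exact h0 (funext fr.c_zero)
  · obtain ⟨y, rfl⟩ := fr.c_surj y
    obtain ⟨y', rfl⟩ := fr.c_surj y'
    change (fr.dat z n0 x N0).β (fr.mat g *ᵥ _) (fr.mat g *ᵥ _) = _
    rw [mat_mulVec, mat_mulVec, dat_β, dat_β, Isom.b (EW_le_Isom _ g.2)]
  · obtain ⟨y, rfl⟩ := fr.c_surj y
    rw [c_smul', dat_sing]
    exact φ.Q_smul_zero ((dat_sing y).1 h) c
  · obtain ⟨y, rfl⟩ := fr.c_surj y
    obtain ⟨y', rfl⟩ := fr.c_surj y'
    rw [dat_β] at h1
    rw [c_add', dat_sing, Q_add, (dat_sing y).1 h, (dat_sing y').1 h', h1]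
    simp
  · obtain ⟨y, rfl⟩ := fr.c_surj y
    rw [dat_β]
    exact φ.b_self_zero ((dat_sing y).1 h)
  · obtain ⟨y, rfl⟩ := fr.c_surj y
    change (fr.dat z n0 x N0).sing (fr.mat g *ᵥ _)
    rw [mat_mulVec, dat_sing, Isom.Q (EW_le_Isom _ g.2)]
    exact (dat_sing y).1 h
  · obtain ⟨y, rfl⟩ := fr.c_surj y
    rw [dat_β] at h
    rw [dat_sing]
    by_cases hΛ : φ.Λ = ⊥
    · rw [b_self_eq hΛ, mul_eq_zero] at h
      exact (Q_zero_iff hΛ).2 (h.resolve_left fun h2 => hq ⟨h2, hΛ⟩)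
    by_cases hσ : ∃ s, φ.σ s ≠ s
    · exact φ.Q_eq_zero_of_ne hσ h
    · push Not at hσ
      exact φ.md_eq_zero.2 (mem_Λ_of_eq hσ hΛ _)
  · obtain ⟨y, rfl⟩ := fr.c_surj y
    obtain ⟨y', rfl⟩ := fr.c_surj y'
    simp only [c_add', symm_c, dat_β, q_add' hq.2]
  · simp only [map_smul, q_smul' hq.2, sq]
  · obtain ⟨y, rfl⟩ := fr.c_surj y
    change φ.q (fr.w.equivFun.symm (fr.mat g *ᵥ _)) = φ.q (fr.w.equivFun.symm _)
    rw [mat_mulVec, symm_c, symm_c, ← Q_eq_iff hq.2, Isom.Q (EW_le_Isom _ g.2)]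
  · obtain ⟨y, rfl⟩ := fr.c_surj y
    obtain ⟨g, hg, t, rfl⟩ := pts hm (z := z) rfl ((dat_sing y).1 h)
    refine ⟨t, ⟨g, sup_le_EW hm hg⟩, ?_⟩
    change _ = t • (fr.mat _ *ᵥ ee z)
    rw [fr.ee_eq, mat_mulVec, c_smul', map_smul]
  · rcases mul_left_eq_self₀.1 he with rfl | rfl
    · change fr.mat g *ᵥ ((1 : F) • ee z) = (1 : F) • ee z at hg
      rw [one_smul, fr.ee_eq, mat_mulVec, c_inj] at hg
      refine Subgroup.closure_mono (fun k hk => ?_) (tor hd' hp (a := z) rfl hg)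
      refine ⟨hk.1, ?_⟩
      change fr.mat k *ᵥ ((1 : F) • ee z) = (1 : F) • ee z
      rw [one_smul, fr.ee_eq, mat_mulVec, hk.2]
    · refine Subgroup.closure_mono (fun k hk => ?_)
        ((normalClosure_U (fr := fr) hm).symm ▸ mem_top g : g ∈ normalClosure _)
      refine ⟨?_, by simp⟩
      obtain ⟨u, hu, hk⟩ := Group.mem_conjugatesOfSet_iff.1 hk
      obtain ⟨c, rfl⟩ := isConj_iff.1 hk
      obtain ⟨j, hj⟩ := hu.2.isP hp
      exact ⟨j, by rw [conj_pow, show u ^ p ^ j = 1 from Subtype.ext hj, mul_one, mul_inv_cancel]⟩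
  · let y : Fin d := ⟨1, by omega⟩
    have h1 : fr.Nd 0 z y := Or.inl ⟨rfl, rfl, hm⟩
    have h2 : y ≠ z.rev := ne_rev_of_lt (fr := fr) hm h1.lt_m
    have key : ∀ t : F, t ≠ 0 → ∃ n ∈ φ.EW ⊤, fr.Mo (rf z y) n ∧ n (fr.w y) = t • fr.w z := by
      intro t ht
      obtain ⟨g, hg, e⟩ := rt_val h1.ro h2 t
      have h3 : fr.c (g (fr.w y)) z = t := by simp [e, c_ne h1.ro.ne.symm]
      obtain ⟨k', hk', k, hk, π, h4, h5, h6⟩ := rt_one h1.ro hg (by
        rintro rfl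
        exact ht (h3.symm.trans (c_ne h1.ro.ne.symm)))
      exact ⟨_, mul_mem (mul_mem (rt_EW h1.ro.symm hk') (rt_EW h1.ro hg)) (rt_EW h1.ro.symm hk),
        h4.unique (pm_rf h1.ro h2) ▸ h5, h3 ▸ h6⟩
    obtain ⟨n1, h3, h4, h5⟩ := key c c.ne_zero
    obtain ⟨n2, h6, h7, h8⟩ := key 1 one_ne_zero
    have h9 := mul_mem h3 (inv_mem h6)
    refine ⟨⟨_, h9⟩, T_le_B ⟨h9, by simpa using h4.mul h7.inv⟩, ?_⟩
    change fr.mat _ *ᵥ ee z = (c : F) • ee z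
    rw [fr.ee_eq, mat_mulVec, c_smul', ← h5, ← one_smul F (fr.w z), ← h8]
    simp
  · have h3 : fr.Nd a.val a b := Or.inl ⟨rfl, h1, h2⟩
    exact dat_mon (h3.mo (pm_rf h3.ro (ne_rev_of_lt h2 h3.lt_m)))
  · have h3 : fr.Nd b.val a b.rev := Or.inr (Or.inr ⟨h, h2, by change b.val + 1 = fr.m at h2; omega,
      by have := h.1; change b.val + 1 = fr.m at h2; rw [Fin.val_rev]; omega⟩)
    exact dat_mon (h3.mo (pm_rf h3.ro (Fin.rev_injective.ne fun e => by rw [e] at h1; omega)))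
  · obtain ⟨g', h1, e⟩ : g.1 ∈ (closure {g : φ.EW ⊤ | g ∈ (fr.dat z n0 x N0).U ∧ ∃ a b, a < b ∧
        ¬ (fr.dat z n0 x N0).Mid a ∧ ¬ (fr.dat z n0 x N0).Mid b ∧ ∀ i j, i ≠ j →
          ¬ (fr.dat z n0 x N0).Pat a b i j → fr.mat g i j = 0}).map (φ.EW ⊤).subtype := by
      refine (closure_le _).2 ?_ (U_eq_Ur (fr := fr) ▸ hg : g.1 ∈ fr.Ur)
      rintro y ⟨a, b, h, hab, hy⟩
      refine ⟨⟨y, rt_EW h hy⟩, subset_closure ⟨rt_U h hab hy, a, b, hab, h.l, h.r,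
        fun i j hij hp => ?_⟩, rfl⟩
      simpa [mat_apply, c_ne hij.symm] using rt_pat h hy j i hp
    exact Subtype.ext e ▸ h1
  · obtain ⟨g, hg, j, hj, h⟩ := witt hm (E := E.comap fr.w.equivFun.toLinearMap)
      ⟨fun y hy => (dat_sing y).1 (hE.1 _ hy), fun y hy y' hy' =>
        (dat_β y' y).symm.trans (hE.2 _ hy' _ hy)⟩
    exact ⟨⟨g, hg⟩, j, hj, h.imp (map_Co ⟨g, hg⟩ _) fun h => ⟨h.1, map_Co ⟨g, hg⟩ _ h.2⟩⟩

end Fr

/-- **Forms have classical data.** -/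
theorem exists_cdf (φ : Form F V) [Finite F] [FiniteDimensional F V] {p : ℕ} (hp : p.Prime)
    [CharP F p] (hd : 19 ≤ finrank F V) : ∃ (w : Basis (Fin (finrank F V)) F V)
      (D : Dat (φ.EW ⊤) F (F0 φ) (finrank F V)), CDF p D ∧
      (∀ g, D.ρ g = LinearMap.toMatrix w w (g.1 : V →ₗ[F] V)) ∧ D.σ = φ.σ ∧
      (∀ x y, D.β (w.repr x) (w.repr y) = φ.b x y) ∧ (∀ x, D.sing (w.repr x) ↔ φ.Q x = 0) ∧
      (D.quad ↔ (2 : F) = 0 ∧ φ.Λ = ⊥) := by
  obtain ⟨fr⟩ := exists_fr φ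
  obtain ⟨z, n0, x, N0, h⟩ := fr.cdf hd hp
  exact ⟨fr.w, _, h, fun _ => rfl, rfl, Fr.dat_β, Fr.dat_sing, Iff.rfl⟩

end Vale.Agent.P183SB
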