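import Vale.Agent.P183SB.Weyl
import Vale.Agent.P240.R2.H727.O1

/-!
P183: the BN-pair of the group generated by the Eichler-Siegel transformations, and transitivity on
totally singular subspaces.
-/

namespace Vale.Agent.P183SB

open Module Vale.Agent.P183CF Vale.Agent.P183CF.Form Vale.Agent.P183M Vale.Agent.P240.H195

variable {F V : Type*} [Field F] [AddCommGroup V] [Module F V] {φ : Form F V}

namespace Fr

variable {d : ℕ} {fr : Fr φ d} {i : ℕ} {a b : Fin d} {π : Equiv.Perm (Fin d)}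
  {x u v n s : V ≃ₗ[F] V}

lemma Pm.val (h : fr.Pm a b π) (k : Fin d) :
    (k.val = a.val ∧ (π k).val = b.val) ∨ (k.val = b.val ∧ (π k).val = a.val) ∨
      (k.val + a.val + 1 = d ∧ (π k).val + b.val + 1 = d) ∨
      (k.val + b.val + 1 = d ∧ (π k).val + a.val + 1 = d) ∨
      (k.val ≠ a.val ∧ k.val ≠ b.val ∧ k.val + a.val + 1 ≠ d ∧ k.val + b.val + 1 ≠ d ∧
        (π k).val = k.val) := by
  have := a.2
  have := b.2
  have := k.2
  by_cases h1 : k = a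
  · exact Or.inl ⟨by rw [h1], by rw [h1, h.l]⟩
  by_cases h2 : k = b
  · exact Or.inr (Or.inl ⟨by rw [h2], by rw [h2, h.r]⟩)
  by_cases h3 : k = a.rev
  · rw [h3, h.rev.l, Fin.val_rev, Fin.val_rev]
    omega
  by_cases h4 : k = b.rev
  · rw [h4, h.rev.r, Fin.val_rev, Fin.val_rev]
    omega
  rw [h.o k h1 h2 h3 h4]
  simp only [Fin.ext_iff, Fin.val_rev] at h1 h2 h3 h4
  omega

lemma lv_lt' {j k : Fin d} : fr.lv j < fr.lv k ↔ j.val < k.val ∧
    ¬ ((fr.m ≤ j.val ∧ j.val + fr.m < d) ∧ (fr.m ≤ k.val ∧ k.val + fr.m < d)) := by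
  rw [lv_lt, md_iff, md_iff, Fin.lt_def]

lemma Nd.inv (h : fr.Nd i a b) (hπ : fr.Pm a b π) {j k : Fin d} (h1 : fr.lv j < fr.lv k)
    (h2 : ¬ fr.lv (π j) < fr.lv (π k)) : (k = b ∧ a ≤ j) ∨ (j = b.rev ∧ k ≤ a.rev ∧ k ≠ b.rev) ∨
      (fr.dty ∧ (a.val + 2 = fr.m ∧ b.val = fr.m) ∧ j = a ∧ k = a.rev) := by
  have h3 := hπ.val j
  have h4 := hπ.val k
  have := fr.le
  have := a.2
  have := b.2
  have := j.2
  have := k.2
  rw [lv_lt'] at h1 h2
  simp only [Fin.ext_iff, Fin.le_def, Fin.val_rev, ne_eq]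
  rcases h with h | ⟨-, h5, h6, h7⟩ | ⟨h, h'⟩
  · have : (k.val = b.val ∧ a.val ≤ j.val) ∨ (j.val = d - (b.val + 1) ∧ k.val ≤ d - (a.val + 1) ∧
        ¬ k.val = d - (b.val + 1)) := by omega
    exact this.imp_right Or.inl
  · rw [Fin.ext_iff, Fin.val_rev] at h7
    have : (k.val = b.val ∧ a.val ≤ j.val) ∨ (j.val = d - (b.val + 1) ∧ k.val ≤ d - (a.val + 1) ∧
        ¬ k.val = d - (b.val + 1)) := by omega
    exact this.imp_right Or.inl
  · have := h.1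
    simp only [h, true_and]
    omega

lemma Nd.comb (h : fr.Nd i a b) (hπ : fr.Pm a b π) {j k : Fin d} (h0 : k = b ∨ fr.Pc a b k)
    (h1 : fr.lv j < fr.lv k) (h2 : fr.lv (π j) < fr.lv (π k)) : j < a := by
  have h3 := hπ.val j
  have h4 := hπ.val k
  have := fr.le
  have := a.2
  have := b.2
  have := j.2
  have := k.2
  rw [lv_lt'] at h1 h2
  simp only [Pc, md_iff, Fin.ext_iff, Fin.val_rev] at h0
  rw [Fin.lt_def]
  rcases h with h | ⟨-, h5, h6, h7⟩ | ⟨h, h'⟩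
  · omega
  · rw [Fin.ext_iff, Fin.val_rev] at h7
    omega
  · have := h.1
    omega

lemma Uni.c_self {r : Fin d → ℕ} (h : fr.Uni r u) (j : Fin d) : fr.c (u (fr.w j)) j = 1 := by
  simpa [sub_eq_zero] using uni_iff.1 h j j (lt_irrefl _)

lemma Tri.low (h : fr.Tri fr.lv u) {k : ℕ} (hk : k ≤ fr.m) {z : V}
    (hz : z ∈ fr.Cs fun i => i.val < k) : u z ∈ fr.Cs fun i => i.val < k :=
  Cs_mono (fun _ => (lv_lt_iff hk).1) (h k z (Cs_mono (fun _ => (lv_lt_iff hk).2) hz))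

/-- a singular vector with one hyperbolic pair in its support, for quadratic forms -/
lemma dz (hΛ : φ.Λ = ⊥) {A : Fin d → Prop} (ha : ¬ Md fr.m a) (h1 : ∀ k, A k → ¬ Md fr.m k)
    (h2 : ∀ k, A k → A k.rev → k = a ∨ k = a.rev) {z : V} (hz : z ∈ fr.Cs A) (hQ : φ.Q z = 0)
    (h3 : fr.c z a.rev ≠ 0) : fr.c z a = 0 := by
  rw [Q_pair ha h1 h2 hz, md_eq_zero, hΛ, AddSubgroup.mem_bot] at hQ
  simpa [h3, J_ne ha] using hQ

lemma dty.not_md (h : fr.dty) (k : Fin d) : ¬ Md fr.m k := by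
  have := h.1
  rw [md_iff]
  omega

lemma dzero (h : fr.dty) (hu : u ∈ φ.Isom) (hu' : fr.Uni fr.lv u) (ha : a.val + 1 = fr.m) :
    fr.c (u (fr.w a.rev)) a = 0 := by
  refine dz h.2 (h.not_md a) (fun k _ => h.not_md k) (fun k h1 h2 => ?_) (tri_iff.1 hu'.tri a.rev)
    (by rw [Isom.Q hu, fr.sing _ (h.not_md _)]) (by rw [hu'.c_self]; exact one_ne_zero)
  have := h.1
  have := k.2
  simp only [lv_of_not (h.not_md _), Fin.val_rev, Fin.ext_iff] at h1 h2 ⊢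
  omega

lemma Nd.col (h : fr.Nd i a b) (hu : u ∈ φ.Isom) (hu' : fr.Uni fr.lv u) :
    u (fr.w b) - fr.w b ∈ fr.Cs fun j => j < a ∨ fr.Pc a b j := by
  intro j hj
  by_cases h1 : fr.lv j < fr.lv b
  · have := fr.le
    have := a.2
    have := j.2
    rw [lv_lt'] at h1
    simp only [Pc, md_iff, Fin.ext_iff, Fin.val_rev, Fin.lt_def] at hj
    rcases h with h | ⟨-, h5, h6, h7⟩ | ⟨h, h'⟩
    · omega
    · rw [Fin.ext_iff, Fin.val_rev] at h7
      omega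
    · have := h.1
      obtain rfl : b = j.rev := by
        rw [Fin.ext_iff, Fin.val_rev]
        omega
      rw [c_sub, dzero h hu hu' (by rw [Fin.val_rev] at h'; omega),
        c_ne (ne_rev (h.not_md j)).symm, sub_zero]
  · exact uni_iff.1 hu' b j h1

variable [FiniteDimensional F V]

lemma Nd.key (h : fr.Nd i a b) (hπ : fr.Pm a b π) (hv : v ∈ φ.Isom) (hv' : fr.Uni fr.lv v)
    (h0 : v (fr.w b) - fr.w b ∈ fr.Cs (· < a)) : fr.Uni (fun j => fr.lv (π j)) v := by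
  have hp := perp_Cs (fr := fr) (A := fun j => j < a ∨ j = b)
    (fun j hj => hj.elim (fun e => not_md (lt_trans e h.lt_m)) fun e => e ▸ h.ro.r) hv
    fun z hz => map_Cs' _ (fun j hj => by
      rcases hj with hj | rfl
      · exact Cs_mono (fun _ => Or.inl) (hv'.tri.low h.lt_m.le (w_mem.2 hj))
      · rw [← sub_add_cancel (v _) (fr.w j)]
        exact add_mem (Cs_mono (fun _ => Or.inl) h0) (w_mem.2 (Or.inr rfl))) hz
  have hp' : ∀ k, k ≤ a.rev → k ≠ b.rev → v (fr.w k) ∈ fr.Cs fun j => j ≤ a.rev ∧ j ≠ b.rev := by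
    have e : ∀ k : Fin d, ¬ (k.rev < a ∨ k.rev = b) ↔ k ≤ a.rev ∧ k ≠ b.rev := fun k => by
      rw [not_or, not_lt, Fin.le_rev_iff, ne_eq, eq_rev_comm, eq_comm]
    exact fun k h1 h2 => Cs_mono (fun j => (e j).1) (hp _ (w_mem.2 ((e k).2 ⟨h1, h2⟩)))
  refine uni_iff.2 fun k j h2 => ?_
  by_cases h1 : fr.lv j < fr.lv k
  swap
  · exact uni_iff.1 hv' k j h1
  rcases h.inv hπ h1 h2 with ⟨rfl, h3⟩ | ⟨rfl, h3, h4⟩ | ⟨hd, h3, rfl, rfl⟩
  · exact h0 j (not_lt.2 h3)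
  · rw [c_sub, c_ne h4, sub_zero]
    exact hp' k h3 h4 _ fun h => h.2 rfl
  · rw [c_sub, c_ne (ne_rev h.ro.l).symm, sub_zero]
    refine dz hd.2 h.ro.l (fun k _ => hd.not_md k) (fun k h5 h6 => ?_)
      (hp' _ le_rfl h.ro.rev.ne) (by rw [Isom.Q hv, fr.sing _ (hd.not_md _)])
      (by rw [hv'.c_self]; exact one_ne_zero)
    have := hd.1
    have := k.2
    simp only [Fin.le_def, Fin.ext_iff, Fin.val_rev, ne_eq] at h5 h6 ⊢
    omega

lemma mem_U_iff (hs : s ∈ φ.EW ⊤) (hπ : fr.Mo π s) (hv : v ∈ φ.EW ⊤) :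
    s * v * s⁻¹ ∈ fr.U ↔ fr.Uni (fun j => fr.lv (π j)) v :=
  ⟨fun h => hπ.uni_conj_iff.1 h.2,
    fun h => ⟨mul_mem (mul_mem hs hv) (inv_mem hs), hπ.uni_conj_iff.2 h⟩⟩

lemma rt_U (h : fr.Ro a b) (hab : a < b) (hx : x ∈ fr.Rt a b) : x ∈ fr.U :=
  ⟨rt_EW h hx, rt_uni h hab hx⟩

lemma U_le_B : fr.U ≤ fr.B := fun _ h => ⟨h.1, h.2.tri⟩

lemma T_le_B : fr.T ≤ fr.B := fun _ h => ⟨h.1, h.2.tri⟩

lemma B_inf_N (hm : 2 ≤ fr.m) : fr.B ⊓ fr.N = fr.T := by
  refine le_antisymm (fun t ht => ?_) (le_inf T_le_B T_le_N)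
  obtain ⟨h1, π, h2⟩ := N_le_Mn hm ht.2
  exact ⟨h1, h2.eq_one_of_tri ht.1.2 ▸ h2⟩

lemma mem_T (hm : 2 ≤ fr.m) {t : V ≃ₗ[F] V} (h1 : t ∈ fr.B) (h2 : t ∈ fr.N) : t ∈ fr.T :=
  B_inf_N hm ▸ (⟨h1, h2⟩ : t ∈ fr.B ⊓ fr.N)

lemma U_eq_Ur : fr.U = fr.Ur :=
  le_antisymm (fun _ h => mem_Ur_of_uni (EW_le_Isom _ h.1) h.2) fun _ h => Ur_le h

lemma B_split {g : V ≃ₗ[F] V} (hg : g ∈ fr.B) : ∃ u ∈ fr.U, ∃ t ∈ fr.T, g = u * t := by
  obtain ⟨r, hr, h⟩ := reduce (EW_le_Isom _ hg.1) hg.2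
  exact ⟨r, Ur_le hr, _, ⟨mul_mem (inv_mem (Ur_le hr).1) hg.1, h⟩, by group⟩

lemma Nd.dec (h : fr.Nd i a b) (hπ : fr.Pm a b π) (hu : u ∈ fr.U) :
    ∃ x ∈ fr.Rt a b, fr.Uni (fun j => fr.lv (π j)) (u * x⁻¹) := by
  have hu' := inv_mem hu
  have h1 := h.col (EW_le_Isom _ hu'.1) hu'.2
  obtain ⟨z, hz, z', hz', e⟩ : ∃ z ∈ fr.Cs (· < a), ∃ z' ∈ fr.Cs (fr.Pc a b),
      z + z' = u⁻¹ (fr.w b) - fr.w b := by
    refine Submodule.mem_sup.1 (Cs_le (fun j hj => ?_) h1)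
    exact hj.elim (fun e => Submodule.mem_sup_left (w_mem.2 e))
      fun e => Submodule.mem_sup_right (w_mem.2 e)
  have e' : u⁻¹ (fr.w b) = z + (fr.w b + z') := by rw [sub_eq_iff_eq_add'.1 e.symm]; abel
  have hQ : φ.Q (fr.w b + z') = 0 := by
    have h2 := Isom.Q (EW_le_Isom _ hu'.1) (fr.w b)
    have h3 : φ.Q z = 0 := (ts_Cs (fun j hj => not_md (lt_trans hj h.lt_m)) fun j hj hj' =>
      ne_rev_of_lt (lt_trans hj' h.lt_m) (lt_trans hj h.lt_m) rfl).1 z hz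
    have h4 : φ.b z (fr.w b + z') = 0 := by
      refine b_Cs (A' := (· ≤ b)) hz (add_mem (w_mem.2 le_rfl) (Cs_mono ?_ hz')) fun j k hj hk =>
        ⟨fun e => ?_, fun h' => not_md (lt_trans hj h.lt_m) h'.1⟩
      · rintro j (rfl | ⟨rfl, hj⟩)
        · exact h.lt.le
        · exact Fin.le_rev_iff.2 (h.lt_m.le.trans hj.2)
      · exact absurd (Fin.rev_le_rev.1 (e ▸ hk.trans h.le_rev)) (not_le.2 hj)
    rwa [e', Q_add, h3, h4, fr.sing b h.ro.r, map_zero, zero_add, add_zero] at h2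
  obtain ⟨x, hx, ex⟩ := rt_exists h.ro hQ (by rwa [add_sub_cancel_left])
  have hux := mul_mem hu (rt_U h.ro h.lt hx)
  refine ⟨x⁻¹, inv_mem hx, ?_⟩
  rw [inv_inv]
  refine h.key hπ (EW_le_Isom _ hux.1) hux.2 ?_
  have : (u * x) (fr.w b) - fr.w b = -u z := by
    rw [LinearEquiv.mul_apply, ex, ← sub_eq_iff_eq_add'.2 e', map_sub, app_inv]
    abel
  rw [this]
  exact neg_mem (hu.2.tri.low h.lt_m.le hz)

lemma Nd.strong (h : fr.Nd i a b) (hπ : fr.Pm a b π) (hx : x ∈ fr.U)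
    (hx' : fr.Uni (fun j => fr.lv (π j)) x) (hu : u ∈ fr.U) :
    fr.Uni (fun j => fr.lv (π j)) (u * x * u⁻¹) := by
  have hux := mul_mem (mul_mem hu hx) (inv_mem hu)
  refine h.key hπ (EW_le_Isom _ hux.1) hux.2 ?_
  have hu' := inv_mem hu
  have h1 : u⁻¹ (fr.w b) ∈ fr.Cs fun j => j < a ∨ j = b ∨ fr.Pc a b j := by
    rw [← sub_add_cancel (u⁻¹ _) (fr.w b)]
    exact add_mem (Cs_mono (fun j hj => hj.imp_right Or.inr) (h.col (EW_le_Isom _ hu'.1) hu'.2))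
      (w_mem.2 (Or.inr (Or.inl rfl)))
  have h2 : x (u⁻¹ (fr.w b)) - u⁻¹ (fr.w b) ∈ fr.Cs (· < a) := by
    refine sub_Cs x (fun k hk => ?_) h1
    rcases hk with hk | hk
    · exact sub_mem (hx.2.tri.low h.lt_m.le (w_mem.2 hk)) (w_mem.2 hk)
    · intro j hj
      by_cases h3 : fr.lv j < fr.lv k
      · exact uni_iff.1 hx' k j fun h4 => hj (h.comb hπ hk h3 h4)
      · exact uni_iff.1 hx.2 k j h3
  simpa using hu.2.tri.low h.lt_m.le h2

theorem bn0 (hm : 2 ≤ fr.m) : BN0 fr.B fr.N fr.S := by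
  have H := fun s (hs : s ∈ fr.S) => (mem_S hm hs).2
  by_cases hd : d = 0
  · have := fr.le
    omega
  have : Nonempty (Fin d) := ⟨⟨0, by omega⟩⟩
  choose! i a b π hs h hπ hπs using H
  have hT : ∀ {π n t}, n ∈ φ.EW ⊤ → fr.Mo π n → t ∈ fr.T → n * t * n⁻¹ ∈ fr.T :=
    fun h1 h2 ht => ⟨mul_mem (mul_mem h1 ht.1) (inv_mem h1), by simpa using (h2.mul ht.2).mul h2.inv⟩
  refine Vale.Agent.P240.R2.H727.O.bn0_of_root (U := fr.U) (fun s => fr.Rt (a s) (b s))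
    (fun n hn t ht htN => ?_) (fun s => S_sub_N) (by rw [B_inf_N hm, N]) (fun s hs => ?_) U_le_B
    (fun g hg => ?_) (fun s hs u hu => ?_) (fun s hs x hx h1 => ?_) (fun n hn s hs => ?_)
    fun s hs => ?_
  · obtain ⟨h1, π, h2⟩ := N_le_Mn hm hn
    exact T_le_B (hT h1 h2 (mem_T hm ht htN))
  · exact T_le_B ⟨mul_mem (mem_S hm hs).1 (mem_S hm hs).1,
      (hπ s hs).sq ▸ (hπs s hs).mul (hπs s hs)⟩
  · obtain ⟨u, hu, t, ht, e⟩ := B_split hg
    exact ⟨u, hu, t, T_le_B ht, T_le_N ht, e⟩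
  · obtain ⟨x, hx, h1⟩ := (h s hs).dec (hπ s hs) hu
    have h2 := mul_mem hu (inv_mem (rt_U (h s hs).ro (h s hs).lt hx))
    exact ⟨_, h2, x, hx, (mem_U_iff (mem_S hm hs).1 (hπs s hs) h2.1).2 h1, by group⟩
  · have hr := (h s hs).ro
    obtain ⟨y', hy', y, hy, π', hπ', h2, -⟩ := rt_one hr hx h1
    obtain rfl := (hπ s hs).unique hπ'
    have h3 := rt_conj hr.symm (hπs s hs) (inv_mem hy')
    have h4 := rt_conj hr.symm (hπs s hs).inv (inv_mem hy)
    rw [hπ'.l, hπ'.r] at h3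
    rw [hπ'.inv.l, hπ'.inv.r] at h4
    refine ⟨_, mul_mem (U_le_B (rt_U hr (h s hs).lt h3)) (T_le_B (x := s * (y' * x * y))
      ⟨mul_mem (mem_S hm hs).1 (mul_mem (mul_mem (rt_EW hr.symm hy') (rt_EW hr hx))
        (rt_EW hr.symm hy)), hπ'.sq ▸ (hπs s hs).mul h2⟩), _, h4, by group⟩
  · obtain ⟨h1, π', h2⟩ := N_le_Mn hm hn
    have hr := (h s hs).ro
    rcases lt_or_gt_of_ne (hr.map h2.sg.inv).ne with h3 | h3
    · exact Or.inl fun x hx => by simpa using rt_U (hr.map h2.sg.inv) h3 (rt_conj hr h2.inv hx)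
    · refine Or.inr fun x hx => ?_
      have h4 := rt_conj hr (hπs s hs) hx
      rw [(hπ s hs).l, (hπ s hs).r] at h4
      simpa using rt_U (hr.symm.map h2.sg.inv) h3 (rt_conj hr.symm h2.inv h4)
  · have hr := (h s hs).ro
    obtain ⟨x, hx, h1⟩ := rt_ne hr (h s hs).not_dty
    refine ⟨x, U_le_B (rt_U hr (h s hs).lt hx), fun h2 => h1 ?_⟩
    have h3 := rt_conj hr (hπs s hs).inv hx
    rw [(hπ s hs).inv.l, (hπ s hs).inv.r, inv_inv] at h3
    have h4 := rt_entry hr.symm h3 (tri_iff.1 h2.2 _ _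
      (not_le.2 (lv_lt.2 ⟨(h s hs).lt, fun h' => hr.l h'.1⟩)))
    rw [mul_assoc, inv_mul_eq_one] at h4
    exact mul_eq_right.1 h4.symm

omit [FiniteDimensional F V] in
lemma eq_one_of_opp (hπ : fr.Sg π) (h : ∀ a, fr.Gd a → π a = a.rev) (hx : x ∈ φ.Isom)
    (h1 : fr.Uni fr.lv x) (h2 : fr.Uni (fun j => fr.lv (π j)) x) : x = 1 := by
  refine fr.w.ext' fun k => sub_eq_zero.1 (fr.ext_c fun j => ?_)
  rw [c_zero, one_app]
  by_cases h3 : fr.lv j < fr.lv k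
  swap
  · exact uni_iff.1 h1 k j h3
  by_cases h4 : fr.lv (π j) < fr.lv (π k)
  swap
  · exact uni_iff.1 h2 k j h4
  have h5 := (lv_lt.1 h3).1
  have h6 := (lv_lt.1 h4).1
  have h' : ∀ a, fr.Gd a → π a.rev = a := fun a ha => by rw [hπ.1, h a ha, Fin.rev_rev]
  have h7 : ¬ fr.Gd j := fun hj => by
    rw [h j hj, Fin.rev_lt_iff] at h6
    have := π.injective ((h _ (hj.mono h6.le)).trans (Fin.rev_rev _))
    exact absurd (this ▸ h6) (not_lt.2 h5.le)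
  have h8 : ¬ fr.Gd k.rev := fun hk => by
    have e := h' _ hk
    rw [Fin.rev_rev] at e
    rw [e] at h6
    have := π.injective (h' _ (hk.mono h6.le))
    rw [Fin.lt_rev_iff, this] at h6
    exact absurd h6 (not_lt.2 h5.le)
  have := fr.le
  have := k.2
  rw [lv_lt'] at h3
  simp only [Gd, not_and, Fin.val_rev] at h7 h8
  by_cases hd : fr.dty
  · have := hd.1
    simp only [hd, true_implies] at h7 h8
    obtain rfl : k = j.rev := by
      rw [Fin.ext_iff, Fin.val_rev]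
      omega
    rw [c_sub, dzero hd hx h1 (by rw [Fin.val_rev] at h8 h3; omega),
      c_ne (ne_rev (hd.not_md j)).symm, sub_zero]
  · simp only [hd, false_implies, not_true, imp_false] at h7 h8
    omega

omit [FiniteDimensional F V] in
lemma exists_coord {z : V} (hQ : φ.Q z = 0) (h0 : z ≠ 0) : ∃ a, ¬ Md fr.m a ∧ fr.c z a ≠ 0 := by
  by_contra h
  push Not at h
  exact h0 (fr.aniso z h hQ)

lemma rho_mem_U {z : Fin d} (hz : z.val = 0) (hm : 0 < fr.m) {t l : F} {y : V}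
    (h : φ.RD (t • fr.w z) y l) : rho h ∈ fr.U := by
  have hz' : z.val < fr.m := by omega
  obtain ⟨h', e⟩ := rho_smul h (fr.sing _ (not_md hz'))
  rw [e, U_eq_Ur]
  exact rho_mem_Ur' hz' h' fun i hi => absurd (Fin.le_def.2 (by omega)) hi

/-- transitivity on singular points -/
lemma pts (hm : 2 ≤ fr.m) {z : Fin d} (hz : z.val = 0) {y : V} (hQ : φ.Q y = 0) :
    ∃ g ∈ fr.B ⊔ fr.N, ∃ t : F, y = g (t • fr.w z) := by
  by_cases h0 : y = 0
  · exact ⟨1, one_mem _, 0, by simp [h0]⟩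
  have hz' : z.val < fr.m := by omega
  have hG : fr.Gd z := ⟨hz', fun _ => by omega⟩
  have hle : ∀ a, z ≤ a := fun a => by rw [Fin.le_def]; omega
  obtain ⟨a, ha, h1⟩ := exists_coord (fr := fr) hQ h0
  obtain ⟨n, hn, π, h2, h3, -⟩ := exists_trans hm hz' (a := a.rev) (mt md_rev.1 ha) (hle _) (hle _)
    fun _ => hG
  obtain ⟨n', hn', π', h4, h5, -⟩ := exists_flip hm hG
  obtain ⟨v, l, hρ, e, -, -⟩ := exists_move (k := 0) (a := a) (a' := a.rev) (Fin.rev_rev _).symm ha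
    ⟨Nat.zero_le _, Nat.zero_le _⟩ (φ.Q_smul_zero hQ (fr.c y a)⁻¹) (by simp [h1])
    fun i hi => absurd ⟨Nat.zero_le _, Nat.zero_le _⟩ hi
  obtain ⟨t, -, e1⟩ := h2.inv.mon _ (mt md_rev.1 ha)
  rw [show π⁻¹ a.rev = z by simp [← h3]] at e1
  have h6 : φ.RD (t • fr.w z) (n⁻¹ v) l := e1 ▸ hρ.map h2.inv.iso
  have h7 : n⁻¹ * rho hρ * n ∈ fr.U := by
    have := rho_conj hρ h2.inv.iso
    rw [inv_inv] at this
    rw [this, rho_congr _ h6 e1 rfl rfl]
    exact rho_mem_U hz (by omega) h6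
  obtain ⟨s, hs, e2⟩ := (h2.mul h4).mon z (not_md hz')
  rw [Equiv.Perm.mul_apply, h5, h2.sg.1, h3, Fin.rev_rev] at e2
  refine ⟨n * (n⁻¹ * rho hρ * n) * n', mul_mem (mul_mem (Subgroup.mem_sup_right hn)
    (Subgroup.mem_sup_left (U_le_B h7))) (Subgroup.mem_sup_right hn'), fr.c y a * s⁻¹, ?_⟩
  rw [show n * (n⁻¹ * rho hρ * n) * n' = rho hρ * (n * n') by group, LinearEquiv.mul_apply,
    map_smul, e2, map_smul, map_smul, e, smul_smul, smul_smul]
  field_simp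
  simp

lemma sup_le_EW (hm : 2 ≤ fr.m) : fr.B ⊔ fr.N ≤ φ.EW ⊤ :=
  sup_le (fun _ h => h.1) fun _ h => (N_le_Mn hm h).1

lemma rho_conj_U (hm : 2 ≤ fr.m) {y y' : V} {l : F} (h : φ.RD y y' l) :
    ∃ g ∈ fr.B ⊔ fr.N, g⁻¹ * rho h * g ∈ fr.U := by
  have := fr.le
  obtain ⟨g, hg, t, e⟩ := pts hm (z := ⟨0, by omega⟩) rfl h.sing
  have hg' := inv_mem (EW_le_Isom _ (sup_le_EW hm hg))
  have h1 := rho_conj h hg'
  rw [inv_inv] at h1
  have h2 : φ.RD (t • fr.w ⟨0, by omega⟩) (g⁻¹ y') l := by simpa [e] using h.map hg'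
  refine ⟨g, hg, ?_⟩
  rw [h1, rho_congr _ h2 (by rw [e, inv_app]) rfl rfl]
  exact rho_mem_U rfl (by omega) h2

theorem gen (hm : 2 ≤ fr.m) : fr.B ⊔ fr.N = φ.EW ⊤ := by
  refine le_antisymm (sup_le_EW hm) (EW_le fun y y' l h _ _ => ?_)
  obtain ⟨g, hg, h1⟩ := rho_conj_U hm h
  have := mul_mem (mul_mem hg (Subgroup.mem_sup_left (U_le_B h1))) (inv_mem hg)
  simpa [mul_assoc] using this

omit [FiniteDimensional F V] in
/-- **Witt's theorem** for totally singular subspaces -/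
theorem witt (hm : 2 ≤ fr.m) {E : Submodule F V} (hE : φ.TS E) : ∃ g ∈ φ.EW ⊤, ∃ j ≤ fr.m,
    E = (fr.Cs fun a => a.val < j).map (g : V →ₗ[F] V) ∨
      (fr.dty ∧ E = (fr.Cs fun a => a.val + 1 < fr.m ∨ a.val = fr.m).map (g : V →ₗ[F] V)) := by
  by_contra hc
  push Not at hc
  have hle := fr.le
  have key : ∀ k, k ≤ fr.m ∧ ∃ g ∈ φ.EW ⊤, ∀ a : Fin d, a.val < k → g (fr.w a) ∈ E := by
    intro k
    induction k with
    | zero => exact ⟨Nat.zero_le _, 1, one_mem _, fun a ha => by omega⟩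
    | succ k ih =>
      obtain ⟨hk, g, hg, h⟩ := ih
      have hgI := EW_le_Isom _ hg
      have hsub : ∀ {g : V ≃ₗ[F] V} {A : Fin d → Prop}, (∀ a, A a → g (fr.w a) ∈ E) →
          (fr.Cs A).map (g : V →ₗ[F] V) ≤ E := fun h => by
        rintro _ ⟨y, hy, rfl⟩
        exact map_Cs' _ h hy
      obtain ⟨y, hy, h1⟩ := SetLike.exists_of_lt (lt_of_le_of_ne (hsub h) (hc g hg k hk).1.symm)
      obtain ⟨z, hz, z', hz', e⟩ : ∃ z ∈ fr.Cs fun a => a.val < k,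
          ∃ z' ∈ fr.Cs fun a => k ≤ a.val, z + z' = g⁻¹ y :=
        Submodule.mem_sup.1 (Cs_le (A := fun _ => True) (fun j _ => (lt_or_ge j.val k).elim
          (fun e => Submodule.mem_sup_left (w_mem.2 e)) fun e => Submodule.mem_sup_right (w_mem.2 e))
          fun _ h => absurd trivial h)
      have h2 : g z' ∈ E := by
        rw [← sub_eq_iff_eq_add'.2 e.symm, map_sub, app_inv]
        exact sub_mem hy (map_Cs' g h hz)
      have h3 : z' ≠ 0 := fun h0 => h1 ⟨z, hz, by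
        rw [h0, add_zero] at e
        simp [e]⟩
      have h4 : φ.Q z' = 0 := by rw [← Isom.Q hgI, hE.1 _ h2]
      have h5 : z' ∈ fr.Cs fun a => k ≤ a.val ∧ k ≤ a.rev.val := fun a ha => by
        by_cases h6 : k ≤ a.val
        · have h7 : a.rev.val < k := not_le.1 fun h => ha ⟨h6, h⟩
          rw [c_eq_zero_iff (not_md_iff.2 (Or.inr (by omega))), ← Isom.b hgI]
          exact hE.b_zero (h _ h7) h2
        · exact hz' a h6
      obtain ⟨a, ha, h6⟩ := exists_coord (fr := fr) h4 h3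
      have h7 : k ≤ a.val ∧ k ≤ a.rev.val := not_not.1 fun h => h6 (h5 a h)
      have hk' : k < fr.m := by
        rw [not_md_iff] at ha
        omega
      obtain ⟨v, l, hρ, e1, -, hfix⟩ := exists_move (a := a) (a' := a.rev) (Fin.rev_rev _).symm ha
        h7 (φ.Q_smul_zero h4 (fr.c z' a)⁻¹) (by simp [h6]) (Submodule.smul_mem _ _ h5)
      have hg' : g * rho hρ ∈ φ.EW ⊤ := mul_mem hg (rho_EW hρ trivial trivial)
      have h8 : ∀ j : Fin d, j.val < k ∨ j = a → (g * rho hρ) (fr.w j) ∈ E := by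
        rintro j (hj | rfl)
        · rw [LinearEquiv.mul_apply, hfix j (Or.inl hj)]
          exact h j hj
        · rw [LinearEquiv.mul_apply, e1, map_smul]
          exact E.smul_mem _ h2
      refine ⟨hk', ?_⟩
      let kk : Fin d := ⟨k, by omega⟩
      by_cases h9 : a = kk.rev → fr.Gd kk
      · obtain ⟨n, hn, π, h10, h11, h12⟩ := exists_trans hm (k := kk) hk' ha h7.1 h7.2 h9
        refine ⟨_, mul_mem hg' (N_le_Mn hm hn).1, fun j hj => ?_⟩
        obtain ⟨t, -, e2⟩ := h10.mon j (not_md (by omega))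
        rw [LinearEquiv.mul_apply, e2, map_smul]
        refine E.smul_mem _ (h8 _ ?_)
        by_cases h13 : j = kk
        · exact Or.inr (h13 ▸ h11)
        · have h14 : j < kk := lt_of_le_of_ne (Nat.lt_succ_iff.1 hj) h13
          rw [h12 j h14]
          exact Or.inl h14
      · exfalso
        push Not at h9
        have hd : fr.dty := by
          by_contra hd
          exact h9.2 ⟨hk', fun h => absurd h hd⟩
        have hd1 := hd.1
        have h10 : k + 1 = fr.m := by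
          by_contra h
          exact h9.2 ⟨hk', fun _ => by simp only [kk]; omega⟩
        have h11 : a.val = fr.m := by
          rw [h9.1, Fin.val_rev]
          simp only [kk]
          omega
        have h12 : ∀ j : Fin d, j.val + 1 < fr.m ∨ j.val = fr.m → (g * rho hρ) (fr.w j) ∈ E :=
          fun j hj => h8 j (hj.imp (by omega) fun e => Fin.ext (e.trans h11.symm))
        refine (hc _ hg' 0 (Nat.zero_le _)).2 hd (le_antisymm (fun y hy => ?_) (hsub h12))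
        refine ⟨(g * rho hρ)⁻¹ y, fun j hj => ?_, app_inv _ _⟩
        rw [c_eq_zero_iff (hd.not_md j), ← Isom.b (EW_le_Isom _ hg'), app_inv]
        refine hE.b_zero (h12 _ ?_) hy
        have := j.2
        rw [Fin.val_rev]
        omega
  exact absurd (key (fr.m + 1)).1 (by omega)

end Fr

end Vale.Agent.P183SB
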