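import Vale.Agent.P183CF.Simple
import Mathlib.LinearAlgebra.Transvection.Basic
import Mathlib.LinearAlgebra.QuadraticForm.Basis
import Mathlib.LinearAlgebra.Reflection
import Mathlib.LinearAlgebra.Trace

/-!
P183: the Dickson invariant, reflections, and the three kinds of form parameters.
-/

namespace Vale.Agent.P183SB

open Module Vale.Agent.P183CF Vale.Agent.P183CF.Form

variable {F V : Type*} [Field F] [AddCommGroup V] [Module F V]

open scoped commutatorElement in
lemma map_comm_one {G A : Type*} [Group G] [CommGroup A] (f : G →* A) (a b : G) : f ⁅a, b⁆ = 1 := by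
  rw [map_commutatorElement, commutatorElement_eq_one_iff_mul_comm, mul_comm]

lemma trace_symm [FiniteDimensional F V] (h2 : (2 : F) = 0) (e : V ≃ₗ[F] Dual F V)
    (h1 : ∀ x y, e x y = e y x) (h0 : ∀ x, e x x = 0) {n : End F V}
    (hn : ∀ x y, e (n x) y = e (n y) x) : LinearMap.trace F V n = 0 := by
  classical
  let w := Module.finBasis F V
  let w' := fun a => e.symm (w.coord a)
  have h3 : ∀ a x, e (w' a) x = w.repr x a := fun a x => by simp [w']
  have h4 : ∀ a, w.repr (n (w a)) a = ∑ c, e (w' c) (w' a) * e (w c) (n (w a)) := fun a => by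
    rw [← h3]
    conv_lhs => rw [← w.sum_repr (w' a)]
    simp only [h3, map_sum, map_smul, LinearMap.sum_apply, LinearMap.smul_apply, smul_eq_mul]
  rw [LinearMap.trace_eq_matrix_trace F w, Matrix.trace]
  simp only [Matrix.diag, LinearMap.toMatrix_apply, h4]
  rw [← Finset.sum_product']
  refine Finset.sum_involution (fun p _ => p.swap) (fun p _ => ?_) (fun p _ hp e' => hp ?_)
    (fun p _ => by simp) fun p _ => rfl
  · simp only [Prod.fst_swap, Prod.snd_swap]
    rw [h1 (w' p.1), h1 (w p.1), hn, h1 (n _), ← two_mul, h2, zero_mul]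
  · rw [show p.2 = p.1 from congrArg Prod.fst e', h0, zero_mul]

/-- **The Dickson invariant.** -/
theorem dickson [FiniteDimensional F V] (h2 : (2 : F) = 0) (B : V →ₗ[F] V →ₗ[F] F)
    (e : V ≃ₗ[F] Dual F V) (he : ∀ x y, e x y = B x y + B y x) :
    ∃ D : (V ≃ₗ[F] V) → F, (∀ g g', (∀ x, B (g x) (g x) = B x x) → (∀ x, B (g' x) (g' x) = B x x) →
      D (g * g') = D g + D g') ∧ ∀ g (n : End F V),
        (∀ x y, B (g x) (g y) - B x y = e (n x) y - e (n y) x) → D g = LinearMap.trace F V n := by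
  classical
  let P : (V ≃ₗ[F] V) → End F V → Prop := fun g n =>
    ∀ x y, B (g x) (g y) - B x y = e (n x) y - e (n y) x
  let D : (V ≃ₗ[F] V) → F := fun g => LinearMap.trace F V (Classical.epsilon (P g))
  have hD : ∀ g n, P g n → D g = LinearMap.trace F V n := fun g n h => by
    have h' := Classical.epsilon_spec (p := P g) ⟨n, h⟩
    rw [← sub_eq_zero, ← map_sub]
    refine trace_symm h2 e (fun x y => by rw [he, he, add_comm])
      (fun x => by rw [he, ← two_mul, h2, zero_mul]) fun x y => ?_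
    simp only [LinearMap.sub_apply, map_sub]
    linear_combination h x y - h' x y
  have hP : ∀ g : V ≃ₗ[F] V, (∀ x, B (g x) (g x) = B x x) → ∃ n, P g n := fun g hg => by
    let w := Module.finBasis F V
    let A : V →ₗ[F] V →ₗ[F] F := B.compl₁₂ (g : V →ₗ[F] V) g - B
    have hA : ∀ x, A x x = 0 := fun x => by simp [A, hg]
    have hA' : ∀ x y, A y x = -A x y := fun x y => by
      have := hA (x + y)
      simp only [map_add, LinearMap.add_apply, hA] at this
      linear_combination this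
    let N : V →ₗ[F] V →ₗ[F] F :=
      w.constr F fun i => w.constr F fun j => if i < j then A (w i) (w j) else 0
    have hN : A = N - N.flip := LinearMap.ext_basis w w fun i j => by
      simp only [N, LinearMap.sub_apply, LinearMap.flip_apply, Basis.constr_basis]
      rcases lt_trichotomy i j with h | rfl | h
      · simp [h, h.not_gt]
      · simp [hA]
      · simp [h, h.not_gt, hA' (w j)]
    refine ⟨(e.symm : Dual F V →ₗ[F] V) ∘ₗ N, fun x y => ?_⟩
    simpa [A] using congrArg (fun A => A x y) hN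
  refine ⟨D, fun g g' hg hg' => ?_, hD⟩
  obtain ⟨n, hn⟩ := hP g hg
  obtain ⟨n', hn'⟩ := hP g' hg'
  have h3 : ∀ x y, e (g'⁻¹ x) y = e x (g' y) := fun x y => by
    have := hn' (g'⁻¹ x) y
    have := hn' y (g'⁻¹ x)
    rw [he, he]
    simp only [app_inv] at *
    linear_combination -‹B x (g' y) - _ = _› - ‹B (g' y) x - _ = _›
  rw [hD g n hn, hD g' n' hn', ← LinearMap.trace_conj' n g'⁻¹, ← map_add]
  refine hD _ _ fun x y => ?_
  have h4 : ∀ x, g'⁻¹.conj n x = g'⁻¹ (n (g' x)) := fun x => rfl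
  simp only [LinearEquiv.mul_apply, LinearMap.add_apply, map_add, h4, h3]
  linear_combination hn (g' x) (g' y) + hn' x y

variable {φ : Form F V}

lemma ε_of_bot (h : φ.Λ = ⊥) : φ.ε = 1 := by
  have := φ.Λ_min 1
  rw [h, AddSubgroup.mem_bot, map_one, mul_one, sub_eq_zero] at this
  exact this.symm

lemma σ_of_bot (h : φ.Λ = ⊥) (t : F) : φ.σ t = t := by
  have := φ.Λ_min t
  rw [h, AddSubgroup.mem_bot, ε_of_bot h, one_mul, sub_eq_zero] at this
  exact this.symm

lemma mem_Λ_of_eq [Finite F] (hσ : ∀ t, φ.σ t = t) (h : φ.Λ ≠ ⊥) (t : F) : t ∈ φ.Λ := by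
  obtain ⟨⟨l, hl⟩, hl0⟩ := AddSubgroup.ne_bot_iff_exists_ne_zero.1 h
  have hl1 : l ≠ 0 := fun e => hl0 (Subtype.ext e)
  by_cases h2 : (2 : F) = 0
  · have : CharP F 2 := (CharP.charP_iff_prime_eq_zero Nat.prime_two).2 h2
    obtain ⟨c, hc⟩ := FiniteField.isSquare_of_char_two (ringChar.eq F 2) (t * l⁻¹)
    have := φ.Λ_smul c l hl
    rwa [hσ, ← hc, inv_mul_cancel_right₀ hl1] at this
  · have h3 := φ.Λ_max l hl
    rcases φ.εε with h4 | h4
    · rw [h4, hσ, one_mul, ← two_mul, mul_eq_zero] at h3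
      exact absurd h3 (not_or.2 ⟨h2, hl1⟩)
    · convert φ.Λ_min (t / 2) using 1
      rw [h4, hσ]
      field_simp
      ring

section orth
variable (h : φ.Λ = ⊥)
include h

lemma md_inj {s t : F} : φ.md s = φ.md t ↔ s = t := by
  rw [md_eq_iff, h, AddSubgroup.mem_bot, sub_eq_zero]

lemma Q_eq_iff {x y : V} : φ.Q x = φ.Q y ↔ φ.q x = φ.q y := md_inj h

lemma Q_zero_iff {x : V} : φ.Q x = 0 ↔ φ.q x = 0 := by
  rw [Q, md_eq_zero, h, AddSubgroup.mem_bot]

lemma q_add' (x y : V) : φ.q (x + y) = φ.q x + φ.q y + φ.b x y := by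
  simpa [h, sub_eq_zero] using φ.q_add x y

lemma q_smul' (c : F) (x : V) : φ.q (c • x) = c * c * φ.q x := by
  simpa [h, sub_eq_zero, σ_of_bot h] using φ.q_smul c x

lemma b_comm (x y : V) : φ.b y x = φ.b x y := by
  rw [φ.herm, ε_of_bot h, σ_of_bot h, one_mul]

lemma b_self_eq (x : V) : φ.b x x = 2 * φ.q x := by
  rw [φ.b_self, ε_of_bot h, σ_of_bot h, one_mul, two_mul]

lemma q_sub' (x y : V) : φ.q (x - y) = φ.q x + φ.q y - φ.b x y := by
  rw [sub_eq_add_neg, q_add' h, ← neg_one_smul F y, q_smul' h, map_smul, smul_eq_mul]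
  ring

/-- reflections -/
def rfl' {v : V} (hv : φ.q v ≠ 0) : V ≃ₗ[F] V :=
  Module.reflection (f := (φ.q v)⁻¹ • φ.b v) (x := v) (by
    rw [LinearMap.smul_apply, b_self_eq h, smul_eq_mul]
    field_simp)

variable {v : V} (hv : φ.q v ≠ 0)

lemma rfl'_apply (x : V) : rfl' h hv x = x - ((φ.q v)⁻¹ * φ.b v x) • v :=
  Module.reflection_apply _ _

lemma rfl'_rfl' (x : V) : rfl' h hv (rfl' h hv x) = x := Module.involutive_reflection _ x

lemma rfl'_isom : rfl' h hv ∈ φ.Isom := by
  refine ⟨fun x y => ?_, fun x => ?_⟩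
  · simp only [rfl'_apply, map_sub, LinearMap.sub_apply, map_smul, b_smul_left, σ_of_bot h,
      smul_eq_mul, b_self_eq h, b_comm h v x]
    field_simp
    ring
  · rw [Q_eq_iff h, rfl'_apply, q_sub' h, q_smul' h, map_smul, smul_eq_mul, b_comm h v x]
    field_simp
    ring

lemma rfl'_fix {x : V} (hx : φ.b v x = 0) : rfl' h hv x = x := by simp [rfl'_apply, hx]

lemma rfl'_move {x y : V} (hQ : φ.Q x = φ.Q y) (hv : φ.q (y - x) ≠ 0) : rfl' h hv x = y := by
  have h1 : φ.b (y - x) x = -φ.q (y - x) := by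
    rw [q_sub' h, map_sub, LinearMap.sub_apply, b_self_eq h, (Q_eq_iff h).1 hQ]
    ring
  rw [rfl'_apply, h1, mul_neg, inv_mul_cancel₀ hv]
  simp

lemma rfl'_smul {c : F} (hc : φ.q (c • v) ≠ 0) : rfl' h hc = rfl' h hv := by
  have h1 : c ≠ 0 := fun e => hc (by rw [q_smul' h, e, zero_mul, zero_mul])
  ext x
  rw [rfl'_apply, rfl'_apply, q_smul' h, b_smul_left, σ_of_bot h, smul_smul]
  congr 2
  field_simp

/-- a reflection times a diagonal isometry of determinant one is not in `EW ⊤` -/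
theorem no_rfl [Finite F] [FiniteDimensional F V] (hd : 11 ≤ finrank F V) {ι : Type*} [Fintype ι]
    (w : Basis ι F V) {g : V ≃ₗ[F] V} (hg : g ∈ φ.Isom) {t : ι → F} (hw : ∀ a, g (w a) = t a • w a)
    (ht : ∏ a, t a = 1) : rfl' h hv * g ∉ φ.EW ⊤ := by
  classical
  intro hE
  rw [← EW_perfect φ.nd_top (by rwa [finrank_top])] at hE
  by_cases h2 : (2 : F) = 0
  · let Q : QuadraticMap F V F :=
      ⟨φ.q, q_smul' h, ⟨⟨φ.b, fun c x => LinearMap.ext fun y => by simp [σ_of_bot h]⟩, q_add' h⟩⟩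
    let B := Q.toBilin (Module.finBasis F V)
    have hB : ∀ x, B x x = φ.q x := fun x =>
      congrArg (fun Q : QuadraticMap F V F => Q x) (Q.toQuadraticMap_toBilin _)
    let e := LinearEquiv.ofInjectiveOfFinrankEq
      (⟨φ.b, fun c x => LinearMap.ext fun y => by simp [σ_of_bot h]⟩ : V →ₗ[F] Dual F V) φ.b_inj
      Subspace.dual_finrank_eq.symm
    have he0 : ∀ x y, e x y = φ.b x y := fun _ _ => rfl
    have he : ∀ x y, φ.b x y = B x y + B y x := fun x y => by
      have := hB (x + y)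
      simp only [map_add, LinearMap.add_apply, hB, q_add' h] at this
      linear_combination -this
    obtain ⟨D, hD, hD'⟩ := dickson h2 B e he
    have h3 : ∀ g ∈ φ.Isom, ∀ g' ∈ φ.Isom, D (g * g') = D g + D g' := fun g hg g' hg' =>
      hD g g' (fun x => by rw [hB, hB, ← Q_eq_iff h, hg.2]) fun x => by
        rw [hB, hB, ← Q_eq_iff h, hg'.2]
    let D' : φ.Isom →* Multiplicative F := MonoidHom.mk' (fun g => Multiplicative.ofAdd (D g))
      fun g g' => by rw [← ofAdd_add, ← h3 _ g.2 _ g'.2]; rfl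
    have h4 : ⁅φ.EW ⊤, φ.EW ⊤⁆ ≤ D'.ker.map φ.Isom.subtype :=
      Subgroup.commutator_le.2 fun a ha b hb =>
        ⟨_, map_comm_one D' ⟨a, EW_le_Isom _ ha⟩ ⟨b, EW_le_Isom _ hb⟩, rfl⟩
    obtain ⟨g', h5, h6⟩ := h4 hE
    have h7 : D (rfl' h hv * g) = 0 := h6 ▸ h5
    have := Fintype.ofFinite F
    have h8 : (⟨g, hg⟩ : φ.Isom) ^ (Fintype.card F - 1) = 1 := by
      refine Subtype.ext (w.ext' fun a => ?_)
      have key : ∀ n : ℕ, (g ^ n) (w a) = t a ^ n • w a := fun n => by
        induction n with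
        | zero => simp
        | succ n ih => rw [pow_succ', LinearEquiv.mul_apply, ih, map_smul, hw, smul_smul, pow_succ]
      have h9 : t a ≠ 0 := fun e => by
        rw [Finset.prod_eq_zero (Finset.mem_univ a) e] at ht
        exact zero_ne_one ht
      simpa [FiniteField.pow_card_sub_one_eq_one _ h9] using key (Fintype.card F - 1)
    have h9 : D g = 0 := by
      have h10 := congrArg (fun g => (D' g).toAdd) h8
      simp only [map_pow, map_one, toAdd_pow, toAdd_one, nsmul_eq_mul] at h10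
      rw [Nat.cast_sub Fintype.card_pos, FiniteField.cast_card_eq_zero] at h10
      simpa [D'] using h10
    rw [h3 _ (rfl'_isom h hv) _ hg, h9, add_zero,
      hD' _ ((-(φ.q v)⁻¹ • B.flip v).smulRight v) fun x y => ?_, LinearMap.trace_smulRight] at h7
    · simp [hB, hv] at h7
    · simp only [rfl'_apply, map_sub, LinearMap.sub_apply, map_smul, LinearMap.smul_apply,
        smul_eq_mul, LinearMap.smulRight_apply, he0, hB, he, LinearMap.flip_apply]
      field_simp
      ring
  · have h3 : ⁅φ.EW ⊤, φ.EW ⊤⁆ ≤ (LinearEquiv.det (R := F) (M := V)).ker :=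
      Subgroup.commutator_le.2 fun a _ b _ => map_comm_one _ a b
    have h4 := congrArg Units.val (h3 hE)
    have h5 : LinearMap.det (g : V →ₗ[F] V) = 1 := by
      rw [← LinearMap.det_toMatrix w, ← ht, ← Matrix.det_diagonal]
      congr 1
      ext i j
      simp [LinearMap.toMatrix_apply, hw, Matrix.diagonal, Finsupp.single_apply, eq_comm]
      split_ifs with h6 <;> simp [h6]
    have h6 : (rfl' h hv : V →ₗ[F] V) = LinearMap.transvection (-((φ.q v)⁻¹ • φ.b v)) v := by
      ext x
      simp [rfl'_apply, LinearMap.transvection.apply, sub_eq_add_neg]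
    rw [map_mul, Units.val_mul, LinearEquiv.coe_det, LinearEquiv.coe_det, h5, h6,
      LinearMap.transvection.det] at h4
    simp [b_self_eq h, hv, h2] at h4

end orth

end Vale.Agent.P183SB
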