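import Vale.Agent.P183CF.Frame
import Vale.Agent.P183CF.Simple
import Vale.Agent.P183M.CD

/-!
P183: Witt bases of forms, coordinate subspaces, triangular, unitriangular and monomial isometries.
-/

namespace Vale.Agent.P183SB

open Module Vale.Agent.P183CF Vale.Agent.P183CF.Form Vale.Agent.P183M

variable {F V : Type*} [Field F] [AddCommGroup V] [Module F V]

/-- the indices of the anisotropic part -/
def Md (m : ℕ) {d : ℕ} (a : Fin d) : Prop := m ≤ a.val ∧ m ≤ a.rev.val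

instance (m : ℕ) {d : ℕ} (a : Fin d) : Decidable (Md m a) := inferInstanceAs (Decidable (_ ∧ _))

lemma md_rev {m d : ℕ} {a : Fin d} : Md m a.rev ↔ Md m a := by
  simp only [Md, Fin.rev_rev]
  exact and_comm

lemma md_iff {m d : ℕ} {a : Fin d} : Md m a ↔ m ≤ a.val ∧ a.val + m < d := by
  have := a.2
  simp only [Md, Fin.val_rev]
  omega

/-- A Witt basis: `w a` and `w a.rev` (`a < m`) are hyperbolic pairs, the middle part is
anisotropic. -/
structure Fr (φ : Form F V) (d : ℕ) where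
  m : ℕ
  w : Basis (Fin d) F V
  le : 2 * m ≤ d
  sing : ∀ a, ¬ Md m a → φ.Q (w a) = 0
  orth : ∀ a b, b ≠ a.rev → ¬ (Md m a ∧ Md m b) → φ.b (w a) (w b) = 0
  one : ∀ a, a.val < m → φ.b (w a) (w a.rev) = 1
  aniso : ∀ x, (∀ a, ¬ Md m a → w.repr x a = 0) → φ.Q x = 0 → x = 0

/-- Witt bases exist -/
theorem exists_fr [Finite F] [FiniteDimensional F V] (φ : Form F V) :
    Nonempty (Fr φ (finrank F V)) := by
  classical
  obtain ⟨m, e, f, h, -, han, -⟩ := φ.nd_top.exists_witt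
  let W := φ.perp (φ.FS e f)
  have hd : finrank F W + 2 * m = finrank F V := by
    have h1 := φ.finrank_perp (φ.FS e f)
    rw [h.finrank_FS, Fintype.card_fin] at h1
    rw [add_comm]
    exact h1
  let y := Module.finBasis F W
  let w : Fin (finrank F V) → V := fun a =>
    if h1 : a.val < m then e ⟨a, h1⟩ else if h2 : a.rev.val < m then f ⟨a.rev, h2⟩ else
      y ⟨a.val - m, by
        have := a.2
        rw [Fin.val_rev] at h2
        omega⟩
  have w1 : ∀ a (h1 : a.val < m), w a = e ⟨a, h1⟩ := fun a h1 => dif_pos h1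
  have w2 : ∀ a (h2 : a.rev.val < m), w a = f ⟨a.rev, h2⟩ := fun a h2 => by
    have h1 : ¬ a.val < m := by
      have := a.2
      rw [Fin.val_rev] at h2
      omega
    simp only [w, dif_neg h1, dif_pos h2]
  have w3 : ∀ a, Md m a → w a ∈ W := fun a ha => by
    simp only [w, dif_neg (not_lt.2 ha.1), dif_neg (not_lt.2 ha.2)]
    exact (y _).2
  have hcase : ∀ a : Fin (finrank F V), ¬ Md m a → a.val < m ∨ a.rev.val < m := fun a ha => by
    by_contra hc
    push Not at hc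
    exact ha hc
  have hFS : ∀ a, ¬ Md m a → w a ∈ φ.FS e f := fun a ha => by
    rcases hcase a ha with h1 | h2
    · rw [w1 a h1]; exact e_mem_FS e f _
    · rw [w2 a h2]; exact f_mem_FS e f _
  have hsp : ⊤ ≤ Submodule.span F (Set.range w) := by
    rw [← h.nd.isCompl.sup_eq_top]
    refine sup_le (FS_le (fun i => ?_) fun i => ?_) ?_
    · refine Submodule.subset_span ⟨⟨i, by omega⟩, ?_⟩
      exact w1 _ i.2
    · refine Submodule.subset_span ⟨Fin.rev ⟨i, by omega⟩, ?_⟩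
      rw [w2 _ (by rw [Fin.rev_rev]; exact i.2)]
      simp
    · intro x hx
      have h1 : x = ∑ k, y.repr ⟨x, hx⟩ k • (y k : V) := by
        have := congrArg W.subtype (y.sum_repr ⟨x, hx⟩)
        rw [map_sum] at this
        exact this.symm
      rw [h1]
      refine Submodule.sum_mem _ fun k _ => Submodule.smul_mem _ _ (Submodule.subset_span
        ⟨⟨m + k, by omega⟩, ?_⟩)
      have h2 : ¬ m + k.val < m := by omega
      have h3 : ¬ (Fin.rev (⟨m + k, by omega⟩ : Fin (finrank F V))).val < m := by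
        rw [Fin.val_rev]
        have := k.2
        simp only
        omega
      simp only [w, dif_neg h2, dif_neg h3, Nat.add_sub_cancel_left]
  let B := basisOfTopLeSpanOfCardEqFinrank w hsp (Fintype.card_fin _)
  have hB : ∀ a, B a = w a := fun a => by
    simp only [B, coe_basisOfTopLeSpanOfCardEqFinrank]
  refine ⟨⟨m, B, by omega, fun a ha => ?_, fun a b hab hm => ?_, fun a ha => ?_,
    fun x hx hQ => han x ⟨trivial, ?_⟩ hQ⟩⟩
  · rw [hB]
    rcases hcase a ha with h1 | h2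
    · rw [w1 a h1]; exact h.Qe _
    · rw [w2 a h2]; exact h.Qf _
  · rw [hB, hB]
    by_cases ha : Md m a
    · exact φ.b_symm_zero (w3 a ha _ (hFS b fun hb => hm ⟨ha, hb⟩))
    by_cases hb : Md m b
    · exact w3 b hb _ (hFS a ha)
    rcases hcase a ha with h1 | h1 <;> rcases hcase b hb with h2 | h2
    · rw [w1 a h1, w1 b h2, h.ee]
    · rw [w1 a h1, w2 b h2, h.ef, if_neg]
      intro hc
      apply hab
      rw [← Fin.rev_rev b]
      exact congrArg Fin.rev (Fin.ext (congrArg Fin.val hc).symm)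
    · rw [w2 a h1, w1 b h2, h.fe, if_neg]
      intro hc
      exact hab (Fin.ext (congrArg Fin.val hc).symm)
    · rw [w2 a h1, w2 b h2, h.ff]
  · rw [hB, hB, w1 a ha, w2 _ (by rwa [Fin.rev_rev]), h.ef, if_pos]
    simp
  · rw [← B.sum_repr x]
    refine Submodule.sum_mem _ fun a _ => ?_
    by_cases ha : Md m a
    · rw [hB]
      exact Submodule.smul_mem _ _ (w3 a ha)
    · rw [hx a ha, zero_smul]
      exact zero_mem _

/-- a subspace invariant under `g` is invariant under `g⁻¹` -/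
lemma inv_mem_of [FiniteDimensional F V] {g : V ≃ₗ[F] V} {E : Submodule F V}
    (h : ∀ x ∈ E, g x ∈ E) : ∀ x ∈ E, g⁻¹ x ∈ E := by
  have h1 : E.map (g : V →ₗ[F] V) = E :=
    Submodule.eq_of_le_of_finrank_eq (Submodule.map_le_iff_le_comap.2 h) (g.finrank_map_eq E)
  intro x hx
  rw [← h1] at hx
  obtain ⟨y, hy, rfl⟩ := hx
  simpa using hy

/-- unipotent maps are `p`-elements -/
lemma pow_eq_one_of_nil {p : ℕ} (hp : p.Prime) [CharP F p] {g : V ≃ₗ[F] V} {n : ℕ}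
    (h : ((g : Module.End F V) - 1) ^ n = 0) : ∃ k : ℕ, g ^ p ^ k = 1 := by
  refine ⟨n, ?_⟩
  obtain ⟨r, hr⟩ := (Commute.one_right ((g : Module.End F V) - 1)).exists_add_pow_prime_pow_eq hp n
  have h1 : ((p : ℕ) : Module.End F V) = 0 := by
    rw [← map_natCast (algebraMap F (Module.End F V)), CharP.cast_eq_zero, map_zero]
  rw [sub_add_cancel, pow_eq_zero_of_le (Nat.lt_pow_self hp.one_lt).le h, h1] at hr
  ext x
  have h2 := congrArg (fun f : Module.End F V => f x) hr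
  simp only [one_pow, zero_add, zero_mul, add_zero, Module.End.one_apply] at h2
  rw [Module.End.pow_apply] at h2
  rw [LinearEquiv.pow_apply]
  exact h2

namespace Fr

variable {φ : Form F V} {d : ℕ} (fr : Fr φ d)

/-- coordinates -/
noncomputable def c (x : V) (a : Fin d) : F := fr.w.repr x a

@[simp] lemma c_add (x y : V) (a : Fin d) : fr.c (x + y) a = fr.c x a + fr.c y a := by simp [c]

@[simp] lemma c_sub (x y : V) (a : Fin d) : fr.c (x - y) a = fr.c x a - fr.c y a := by simp [c]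

@[simp] lemma c_neg (x : V) (a : Fin d) : fr.c (-x) a = -fr.c x a := by simp [c]

@[simp] lemma c_smul (t : F) (x : V) (a : Fin d) : fr.c (t • x) a = t * fr.c x a := by simp [c]

@[simp] lemma c_zero (a : Fin d) : fr.c 0 a = 0 := by simp [c]

@[simp] lemma c_self (a : Fin d) : fr.c (fr.w a) a = 1 := by simp [c]

lemma ext_c {x y : V} (h : ∀ a, fr.c x a = fr.c y a) : x = y := fr.w.ext_elem h

lemma sum_c (x : V) : ∑ a, fr.c x a • fr.w a = x := fr.w.sum_repr x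

/-- the value of the form on a hyperbolic pair -/
noncomputable def J (a : Fin d) : F := φ.b (fr.w a) (fr.w a.rev)

/-- coordinate subspaces -/
def Cs (A : Fin d → Prop) : Submodule F V where
  carrier := {x | ∀ a, ¬ A a → fr.c x a = 0}
  add_mem' := fun {x y} hx hy a ha => by simp [hx a ha, hy a ha]
  zero_mem' := fun a _ => by simp
  smul_mem' := fun t x hx a ha => by simp [hx a ha]

/-- the anisotropic part -/
abbrev V0 : Submodule F V := fr.Cs (Md fr.m)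

/-- levels: the anisotropic part has one level -/
def lv (a : Fin d) : ℕ := if Md fr.m a then fr.m else a.val

/-- the flag of a level function -/
abbrev Lv (r : Fin d → ℕ) (k : ℕ) : Submodule F V := fr.Cs fun i => r i < k

/-- block triangular maps -/
def Tri (r : Fin d → ℕ) (g : V ≃ₗ[F] V) : Prop := ∀ k, ∀ x ∈ fr.Lv r k, g x ∈ fr.Lv r k

/-- block unitriangular maps -/
def Uni (r : Fin d → ℕ) (g : V ≃ₗ[F] V) : Prop := ∀ k, ∀ x ∈ fr.Lv r (k + 1), g x - x ∈ fr.Lv r k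

/-- signed permutations -/
def Sg (π : Equiv.Perm (Fin d)) : Prop := (∀ a, π a.rev = (π a).rev) ∧ ∀ a, Md fr.m a → π a = a

/-- monomial isometries -/
structure Mo (π : Equiv.Perm (Fin d)) (g : V ≃ₗ[F] V) : Prop where
  iso : g ∈ φ.Isom
  sg : fr.Sg π
  mon : ∀ a, ¬ Md fr.m a → ∃ t : F, t ≠ 0 ∧ g (fr.w a) = t • fr.w (π a)

variable {fr}

lemma mem_Cs {A : Fin d → Prop} {x : V} : x ∈ fr.Cs A ↔ ∀ a, ¬ A a → fr.c x a = 0 := Iff.rfl

lemma c_w (a b : Fin d) : fr.c (fr.w a) b = if a = b then 1 else 0 := by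
  simp [c, Finsupp.single_apply]

lemma c_ne {a b : Fin d} (h : a ≠ b) : fr.c (fr.w a) b = 0 := by rw [c_w, if_neg h]

lemma w_mem {A : Fin d → Prop} {a : Fin d} : fr.w a ∈ fr.Cs A ↔ A a := by
  refine ⟨fun h => ?_, fun h b hb => c_ne fun e => hb (e ▸ h)⟩
  by_contra hc
  simpa using h a hc

lemma Cs_mono {A A' : Fin d → Prop} (h : ∀ a, A a → A' a) : fr.Cs A ≤ fr.Cs A' :=
  fun _ hx a ha => hx a fun h' => ha (h a h')

lemma eq_zero_of_Cs {A : Fin d → Prop} {x : V} (hx : x ∈ fr.Cs A) (h : ∀ a, ¬ A a) : x = 0 :=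
  fr.ext_c fun a => by simpa using hx a (h a)

lemma Cs_le {A : Fin d → Prop} {E : Submodule F V} (h : ∀ a, A a → fr.w a ∈ E) : fr.Cs A ≤ E := by
  intro x hx
  rw [← fr.sum_c x]
  refine E.sum_mem fun a _ => ?_
  by_cases ha : A a
  · exact E.smul_mem _ (h a ha)
  · rw [hx a ha, zero_smul]
    exact E.zero_mem

lemma map_Cs {A : Fin d → Prop} {E : Submodule F V} (g : V →ₗ[F] V)
    (h : ∀ a, A a → g (fr.w a) ∈ E) {x : V} (hx : x ∈ fr.Cs A) : g x ∈ E :=
  Cs_le (E := E.comap g) h hx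

lemma map_Cs' {A : Fin d → Prop} {E : Submodule F V} (g : V ≃ₗ[F] V)
    (h : ∀ a, A a → g (fr.w a) ∈ E) {x : V} (hx : x ∈ fr.Cs A) : g x ∈ E :=
  map_Cs (g : V →ₗ[F] V) h hx

lemma sub_Cs {A : Fin d → Prop} {E : Submodule F V} (g : V ≃ₗ[F] V)
    (h : ∀ a, A a → g (fr.w a) - fr.w a ∈ E) {x : V} (hx : x ∈ fr.Cs A) : g x - x ∈ E :=
  map_Cs ((g : V →ₗ[F] V) - LinearMap.id) h hx

lemma eq_smul_of_Cs {a : Fin d} {x : V} (hx : x ∈ fr.Cs (· = a)) : x = fr.c x a • fr.w a :=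
  fr.ext_c fun b => by
    by_cases h : b = a
    · simp [h]
    · rw [hx b h]
      simp [c_ne (Ne.symm h)]

lemma sub_mem_Cs {A : Fin d → Prop} {a : Fin d} {x : V} (hx : x ∈ fr.Cs A) :
    x - fr.c x a • fr.w a ∈ fr.Cs fun i => A i ∧ i ≠ a := by
  intro b hb
  by_cases h : b = a
  · simp [h]
  · have : fr.c x b = 0 := hx b fun h' => hb ⟨h', h⟩
    simp [this, c_ne (Ne.symm h)]

lemma ne_rev {a : Fin d} (ha : ¬ Md fr.m a) : a ≠ a.rev := by
  intro h
  have h1 := congrArg Fin.val h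
  have := fr.le
  have := a.2
  rw [md_iff] at ha
  rw [Fin.val_rev] at h1
  omega

lemma J_rev (a : Fin d) : fr.J a.rev = φ.ε * φ.σ (fr.J a) := by
  rw [J, J, Fin.rev_rev, φ.herm]

lemma J_cases {a : Fin d} (ha : ¬ Md fr.m a) : fr.J a = 1 ∨ fr.J a = -1 := by
  by_cases h : a.val < fr.m
  · exact Or.inl (fr.one a h)
  · have h2 : a.rev.val < fr.m := by
      by_contra h2
      exact ha ⟨not_lt.1 h, not_lt.1 h2⟩
    have h3 := J_rev (fr := fr) a.rev
    rw [Fin.rev_rev, show fr.J a.rev = 1 from fr.one _ h2, map_one, mul_one] at h3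
    rw [h3]
    exact φ.εε

lemma J_sq {a : Fin d} (ha : ¬ Md fr.m a) : fr.J a * fr.J a = 1 := by
  rcases J_cases ha with h | h <;> simp [h]

lemma σ_J {a : Fin d} (ha : ¬ Md fr.m a) : φ.σ (fr.J a) = fr.J a := by
  rcases J_cases ha with h | h <;> simp [h]

lemma J_ne {a : Fin d} (ha : ¬ Md fr.m a) : fr.J a ≠ 0 := by
  rcases J_cases ha with h | h <;> simp [h]

lemma J_rev' {a : Fin d} (ha : ¬ Md fr.m a) : fr.J a.rev = φ.ε * fr.J a := by
  rw [J_rev, σ_J ha]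

lemma b_w {a : Fin d} (ha : ¬ Md fr.m a) (x : V) : φ.b (fr.w a) x = fr.J a * fr.c x a.rev := by
  conv_lhs => rw [← fr.sum_c x]
  rw [map_sum, Finset.sum_eq_single a.rev]
  · rw [map_smul, smul_eq_mul, mul_comm]; rfl
  · intro b _ hb
    rw [map_smul, fr.orth a b hb fun h => ha h.1, smul_zero]
  · simp

lemma b_w_eq_zero {a : Fin d} (ha : ¬ Md fr.m a) {x : V} :
    φ.b (fr.w a) x = 0 ↔ fr.c x a.rev = 0 := by
  rw [b_w ha, mul_eq_zero, or_iff_right (J_ne ha)]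

lemma c_eq_zero_iff {a : Fin d} (ha : ¬ Md fr.m a) {x : V} :
    fr.c x a = 0 ↔ φ.b (fr.w a.rev) x = 0 := by
  rw [b_w_eq_zero (mt md_rev.1 ha), Fin.rev_rev]

lemma b_Cs {A A' : Fin d → Prop} {x y : V} (hx : x ∈ fr.Cs A) (hy : y ∈ fr.Cs A')
    (h : ∀ a b, A a → A' b → b ≠ a.rev ∧ ¬ (Md fr.m a ∧ Md fr.m b)) : φ.b x y = 0 := by
  have h1 : fr.Cs A' ≤ φ.perp (fr.Cs A) := Cs_le fun b hb => by
    have h2 : fr.Cs A ≤ φ.perp (F ∙ fr.w b) := Cs_le fun a ha =>
      φ.mem_perp_singleton.2 (φ.b_symm_zero (fr.orth a b (h a b ha hb).1 (h a b ha hb).2))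
    exact fun z hz => φ.b_symm_zero (φ.mem_perp_singleton.1 (h2 hz))
  exact h1 hy x hx

lemma ts_Cs {A : Fin d → Prop} (h1 : ∀ a, A a → ¬ Md fr.m a) (h2 : ∀ a, A a → ¬ A a.rev) :
    φ.TS (fr.Cs A) := by
  refine (ts_span (S := fr.w '' {a | A a}) ?_ ?_).mono
    (Cs_le fun a ha => Submodule.subset_span ⟨a, ha, rfl⟩)
  · rintro _ ⟨a, ha, rfl⟩
    exact fr.sing a (h1 a ha)
  · rintro _ ⟨a, ha, rfl⟩ _ ⟨b, hb, rfl⟩
    exact fr.orth a b (fun e => h2 a ha (e ▸ hb)) fun h => h1 a ha h.1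

/-- the value of `Q` on a vector whose support contains only one hyperbolic pair -/
lemma Q_pair {A : Fin d → Prop} {a : Fin d} (ha : ¬ Md fr.m a) (h1 : ∀ k, A k → ¬ Md fr.m k)
    (h2 : ∀ k, A k → A k.rev → k = a ∨ k = a.rev) {x : V} (hx : x ∈ fr.Cs A) :
    φ.Q x = φ.md (φ.σ (fr.c x a) * fr.J a * fr.c x a.rev) := by
  have h3 := sub_mem_Cs (a := a.rev) hx
  have h4 := (ts_Cs (fr := fr) (A := fun i => A i ∧ i ≠ a.rev) (fun k hk => h1 k hk.1)
    fun k hk hk' => by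
      rcases h2 k hk.1 hk'.1 with rfl | h
      · exact hk'.2 rfl
      · exact hk.2 h).1 _ h3
  have ha' : ¬ Md fr.m a.rev := mt md_rev.1 ha
  conv_lhs => rw [← sub_add_cancel x (fr.c x a.rev • fr.w a.rev)]
  rw [Q_add, h4, φ.Q_smul_zero (fr.sing _ ha'), zero_add, zero_add, map_smul, φ.herm, b_w ha',
    J_rev' ha, Fin.rev_rev]
  congr 1
  have h5 : fr.c (x - fr.c x a.rev • fr.w a.rev) a = fr.c x a := by
    simp [c_ne (ne_rev ha).symm]
  rw [h5, map_mul, map_mul, σ_ε, σ_J ha, smul_eq_mul]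
  linear_combination (fr.c x a.rev * fr.J a * φ.σ (fr.c x a)) * φ.ε_mul_ε

/-- an isometry which stabilises a coordinate subspace stabilises its orthogonal complement -/
lemma perp_Cs [FiniteDimensional F V] {A : Fin d → Prop} (h1 : ∀ k, A k → ¬ Md fr.m k)
    {g : V ≃ₗ[F] V} (hg : g ∈ φ.Isom) (h : ∀ x ∈ fr.Cs A, g x ∈ fr.Cs A) :
    ∀ x ∈ fr.Cs fun k => ¬ A k.rev, g x ∈ fr.Cs fun k => ¬ A k.rev := by
  intro x hx k hk
  rw [not_not] at hk
  rw [c_eq_zero_iff (mt md_rev.2 (h1 _ hk)), Isom.b_right hg]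
  refine b_Cs (inv_mem_of h _ (w_mem.2 hk)) hx fun a b ha hb => ⟨fun e => hb ?_, fun h => h1 a ha h.1⟩
  rwa [e, Fin.rev_rev]

lemma lv_of_md {a : Fin d} (ha : Md fr.m a) : fr.lv a = fr.m := if_pos ha

lemma lv_of_not {a : Fin d} (ha : ¬ Md fr.m a) : fr.lv a = a.val := if_neg ha

lemma lv_lt {a b : Fin d} : fr.lv a < fr.lv b ↔ a < b ∧ ¬ (Md fr.m a ∧ Md fr.m b) := by
  have := fr.le
  have := a.2
  have := b.2
  unfold lv
  rw [Fin.lt_def]
  split_ifs with h1 h2 h2 <;> simp only [h1, h2] <;> rw [md_iff] at h1 h2 <;> simp <;> omega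

lemma lv_le_d (a : Fin d) : fr.lv a < d + 1 := by
  have := fr.le
  have := a.2
  unfold lv
  split_ifs <;> omega

section tri
variable {r : Fin d → ℕ} {g g' : V ≃ₗ[F] V}

lemma tri_iff : fr.Tri r g ↔ ∀ j, g (fr.w j) ∈ fr.Cs fun i => r i ≤ r j := by
  refine ⟨fun h j => Cs_mono (fun i hi => Nat.lt_succ_iff.1 hi)
    (h (r j + 1) _ (w_mem.2 (Nat.lt_succ_self _))), fun h k x hx => map_Cs' g (fun j hj => ?_) hx⟩
  exact Cs_mono (fun i hi => lt_of_le_of_lt hi hj) (h j)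

lemma uni_iff : fr.Uni r g ↔ ∀ j, g (fr.w j) - fr.w j ∈ fr.Lv r (r j) := by
  refine ⟨fun h j => h (r j) _ (w_mem.2 (Nat.lt_succ_self _)),
    fun h k x hx => sub_Cs g (fun j hj => ?_) hx⟩
  exact Cs_mono (fun i hi => lt_of_lt_of_le hi (Nat.lt_succ_iff.1 hj)) (h j)

lemma Uni.tri (h : fr.Uni r g) : fr.Tri r g := by
  intro k x hx
  have h1 := h k x (Cs_mono (fun i hi => Nat.lt_succ_of_lt hi) hx)
  simpa using add_mem h1 hx

lemma tri_one : fr.Tri r 1 := fun _ _ hx => hx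

lemma uni_one : fr.Uni r 1 := fun _ x _ => by simp

lemma Tri.mul (h : fr.Tri r g) (h' : fr.Tri r g') : fr.Tri r (g * g') :=
  fun k x hx => h k _ (h' k x hx)

lemma Tri.inv [FiniteDimensional F V] (h : fr.Tri r g) : fr.Tri r g⁻¹ := fun k => inv_mem_of (h k)

lemma Uni.mul (h : fr.Uni r g) (h' : fr.Uni r g') : fr.Uni r (g * g') := by
  intro k x hx
  have := add_mem (h.tri k _ (h' k x hx)) (h k x hx)
  simpa using this

lemma Uni.inv [FiniteDimensional F V] (h : fr.Uni r g) : fr.Uni r g⁻¹ := by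
  intro k x hx
  simpa using neg_mem (h k _ (h.tri.inv _ x hx))

lemma Uni.conj [FiniteDimensional F V] (h : fr.Uni r g) (h' : fr.Tri r g') :
    fr.Uni r (g' * g * g'⁻¹) := by
  intro k x hx
  simpa using h' k _ (h k _ (h'.inv _ x hx))

lemma Uni.isP {p : ℕ} (hp : p.Prime) [CharP F p] (h : fr.Uni fr.lv g) : ∃ k : ℕ, g ^ p ^ k = 1 := by
  refine pow_eq_one_of_nil hp (n := d + 1) (LinearMap.ext fun x => ?_)
  have key : ∀ k, ∀ x ∈ fr.Lv fr.lv k, (((g : Module.End F V) - 1) ^ k) x = 0 := by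
    intro k
    induction k with
    | zero => intro x hx; exact eq_zero_of_Cs hx fun a => Nat.not_lt_zero _
    | succ k ih => intro x hx; rw [pow_succ, Module.End.mul_apply]; exact ih _ (h k x hx)
  exact key _ x fun a ha => absurd (lv_le_d a) ha

end tri

section mo
variable {π π' : Equiv.Perm (Fin d)} {g g' : V ≃ₗ[F] V}

lemma Sg.md (h : fr.Sg π) {a : Fin d} : Md fr.m (π a) ↔ Md fr.m a := by
  refine ⟨fun h1 => ?_, fun h1 => by rwa [h.2 a h1]⟩
  rwa [π.injective (h.2 _ h1)] at h1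

lemma sg_one : fr.Sg 1 := ⟨fun _ => rfl, fun _ _ => rfl⟩

lemma Sg.mul (h : fr.Sg π) (h' : fr.Sg π') : fr.Sg (π * π') :=
  ⟨fun a => by simp [h.1, h'.1], fun a ha => by simp [h.2 a ha, h'.2 a ha]⟩

lemma Sg.inv (h : fr.Sg π) : fr.Sg π⁻¹ :=
  ⟨fun a => π.injective (by simp [h.1]), fun a ha => π.injective (by simp [h.2 a ha])⟩

lemma mo_one : fr.Mo 1 1 := ⟨one_mem _, sg_one, fun _ _ => ⟨1, one_ne_zero, by simp⟩⟩

lemma Mo.mul (h : fr.Mo π g) (h' : fr.Mo π' g') : fr.Mo (π * π') (g * g') := by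
  refine ⟨mul_mem h.iso h'.iso, h.sg.mul h'.sg, fun a ha => ?_⟩
  obtain ⟨t, ht, e⟩ := h'.mon a ha
  obtain ⟨s, hs, e'⟩ := h.mon _ (mt h'.sg.md.1 ha)
  exact ⟨t * s, mul_ne_zero ht hs, by simp [e, e', smul_smul]⟩

lemma Mo.inv (h : fr.Mo π g) : fr.Mo π⁻¹ g⁻¹ := by
  refine ⟨inv_mem h.iso, h.sg.inv, fun a ha => ?_⟩
  obtain ⟨t, ht, e⟩ := h.mon (π⁻¹ a) (mt h.sg.inv.md.1 ha)
  rw [show π (π⁻¹ a) = a by simp] at e
  refine ⟨t⁻¹, inv_ne_zero ht, g.injective ?_⟩
  rw [app_inv, map_smul, e, smul_smul, inv_mul_cancel₀ ht, one_smul]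

lemma Mo.map_V0 (h : fr.Mo π g) {x : V} (hx : x ∈ fr.V0) : g x ∈ fr.V0 := by
  intro a ha
  have ha' : ¬ Md fr.m a.rev := mt md_rev.1 ha
  obtain ⟨t, -, e⟩ := h.inv.mon _ ha'
  have h1 : ¬ Md fr.m (π⁻¹ a.rev) := mt h.sg.inv.md.1 ha'
  rw [c_eq_zero_iff ha, Isom.b_right h.iso, e, b_smul_left, b_w h1, hx _ (mt md_rev.1 h1),
    mul_zero, mul_zero]

lemma Mo.map_Cs (h : fr.Mo π g) {A : Fin d → Prop}
    (hA : ∀ a b, Md fr.m a → Md fr.m b → A a → A b) {x : V} (hx : x ∈ fr.Cs A) :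
    g x ∈ fr.Cs fun i => A (π⁻¹ i) := by
  refine map_Cs' g (fun a ha => ?_) hx
  by_cases hm : Md fr.m a
  · refine Cs_mono (fun i hi => ?_) (h.map_V0 (w_mem.2 hm))
    rw [h.sg.inv.2 i hi]
    exact hA a i hm hi ha
  · obtain ⟨t, -, e⟩ := h.mon a hm
    rw [e]
    exact Submodule.smul_mem _ _ (w_mem.2 (by simpa using ha))

lemma Mo.unique (h : fr.Mo π g) (h' : fr.Mo π' g) : π = π' := by
  ext1 a
  by_cases ha : Md fr.m a
  · rw [h.sg.2 a ha, h'.sg.2 a ha]
  · obtain ⟨t, ht, e⟩ := h.mon a ha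
    obtain ⟨s, -, e'⟩ := h'.mon a ha
    by_contra hne
    have := congrArg (fun x => fr.c x (π a)) (e.symm.trans e')
    simp [c_ne (Ne.symm hne), ht] at this

/-- conjugation of unitriangular maps by monomial isometries -/
lemma Mo.uni_conj (h : fr.Mo π g) {r : Fin d → ℕ}
    (hr : ∀ a b, Md fr.m a → Md fr.m b → r a = r b) {u : V ≃ₗ[F] V}
    (hu : fr.Uni (fun a => r (π a)) u) : fr.Uni r (g * u * g⁻¹) := by
  intro k x hx
  have h1 := h.inv.map_Cs (A := fun i => r i < k + 1) (fun a b ha hb => by rw [hr a b ha hb]; exact id) hx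
  have h2 := h.map_Cs (A := fun i => r (π i) < k) (fun a b ha hb => by
    rw [h.sg.2 a ha, h.sg.2 b hb, hr a b ha hb]; exact id) (hu k _ h1)
  simpa using h2

lemma lv_md {a b : Fin d} (ha : Md fr.m a) (hb : Md fr.m b) : fr.lv a = fr.lv b := by
  rw [lv_of_md ha, lv_of_md hb]

lemma Mo.uni_conj_iff (h : fr.Mo π g) {u : V ≃ₗ[F] V} :
    fr.Uni fr.lv (g * u * g⁻¹) ↔ fr.Uni (fun a => fr.lv (π a)) u := by
  refine ⟨fun hu => ?_, h.uni_conj fun _ _ => lv_md⟩
  have := h.inv.uni_conj (r := fun a => fr.lv (π a)) (u := g * u * g⁻¹)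
    (fun a b ha hb => lv_md (h.sg.md.2 ha) (h.sg.md.2 hb)) (by simpa using hu)
  simpa [mul_assoc] using this

lemma Mo.tri (h : fr.Mo 1 g) : fr.Tri fr.lv g := fun k x hx => by
  simpa using h.map_Cs (A := fun i => fr.lv i < k)
    (fun a b ha hb => by rw [lv_md ha hb]; exact id) hx

lemma Mo.eq_one_of_tri (h : fr.Mo π g) (ht : fr.Tri fr.lv g) : π = 1 := by
  have key : ∀ a, ¬ Md fr.m a → (π a).val ≤ a.val := by
    intro a ha
    obtain ⟨t, ht0, e⟩ := h.mon a ha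
    have h1 := tri_iff.1 ht a
    rw [e, Submodule.smul_mem_iff _ ht0, w_mem, lv_of_not ha, lv_of_not (mt h.sg.md.1 ha)] at h1
    exact h1
  ext1 a
  by_cases ha : Md fr.m a
  · exact h.sg.2 a ha
  · have h1 := key a ha
    have h2 := key a.rev (mt md_rev.1 ha)
    rw [h.sg.1, Fin.val_rev, Fin.val_rev] at h2
    have := a.2
    have := (π a).2
    exact Fin.ext (by simp only [Equiv.Perm.coe_one, id]; omega)

lemma Mo.eq_one_of_uni (h : fr.Mo 1 g) (hu : fr.Uni fr.lv g) : g = 1 := by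
  refine fr.w.ext' fun a => sub_eq_zero.1 ?_
  have h1 := uni_iff.1 hu a
  by_cases ha : Md fr.m a
  · have h2 : g (fr.w a) - fr.w a ∈ fr.V0 := sub_mem (h.map_V0 (w_mem.2 ha)) (w_mem.2 ha)
    refine fr.ext_c fun i => ?_
    rw [c_zero]
    by_cases hi : Md fr.m i
    · exact h1 i (not_lt.2 (lv_md ha hi).le)
    · exact h2 i hi
  · obtain ⟨t, -, e⟩ := h.mon a ha
    have h2 := h1 a (lt_irrefl _)
    rw [e] at h2 ⊢
    have h3 : t = 1 := by simpa [sub_eq_zero] using h2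
    simp [h3]

end mo

end Fr

end Vale.Agent.P183SB
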