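import Vale.Agent.P183SB.Fr

/-!
P183: root subgroups with respect to a Witt basis, the rank one subgroups, and reduction of
triangular isometries to monomial ones.
-/

namespace Vale.Agent.P183SB

open Module Vale.Agent.P183CF Vale.Agent.P183CF.Form Vale.Agent.P183M

variable {F V : Type*} [Field F] [AddCommGroup V] [Module F V] {φ : Form F V}

lemma rho_shift {u v : V} {l t : F} (h : φ.RD u (v + t • u) l) :
    ∃ h' : φ.RD u v (φ.σ t + l - φ.ε * t), rho h = rho h' := by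
  have h1 : φ.b u v = 0 := by simpa [h.uu] using h.orth
  refine ⟨⟨h.sing, h1, ?_⟩, LinearEquiv.ext fun x => ?_⟩
  · have h2 := h.val
    rw [Q_add, φ.Q_smul_zero h.sing, map_smul, φ.b_symm_zero h1, smul_zero, map_zero, add_zero,
      add_zero] at h2
    rw [h2, eq_comm, md_eq_iff]
    convert φ.Λ_min (φ.σ t) using 1
    rw [σσ']
    ring
  · simp only [rho_apply, map_add, LinearMap.add_apply, b_smul_left]
    match_scalars <;> [ring; ring; linear_combination (-t * φ.b u x) * φ.ε_mul_ε]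

lemma rho_smul {u v : V} {l t : F} (h : φ.RD (t • u) v l) (hu : φ.Q u = 0) :
    ∃ h' : φ.RD u (φ.σ t • v) (φ.σ t * t * l), rho h = rho h' := by
  refine ⟨⟨hu, by simpa using h.orth, ?_⟩, LinearEquiv.ext fun x => ?_⟩
  · rw [φ.Q_smul' h.val, σσ', mul_comm t]
  · simp only [rho_apply, b_smul_left, σσ']
    match_scalars <;> ring

lemma rho_swap {u v : V} (h : φ.RD u v 0) : ∃ h' : φ.RD v (-φ.ε • u) 0, rho h = rho h' := by
  refine ⟨⟨by rw [h.val, map_zero], by simp [h.vu], by rw [φ.Q_smul_zero h.sing, map_zero]⟩,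
    LinearEquiv.ext fun x => ?_⟩
  simp only [rho_apply, b_smul_left, map_neg, σ_ε]
  match_scalars <;> [ring; linear_combination (-φ.b u x) * φ.ε_mul_ε; ring]

namespace Fr

variable {d : ℕ} (fr : Fr φ d)

/-- the pair `a, b` defines a root -/
structure Ro (a b : Fin d) : Prop where
  l : ¬ Md fr.m a
  r : ¬ Md fr.m b
  ne : a ≠ b

/-- the support of the vector of a root element -/
def Pv (a b i : Fin d) : Prop := (b = a.rev ∧ Md fr.m i) ∨ (b ≠ a.rev ∧ i = b.rev)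

/-- the support of the column `b` of a root element -/
def Pc (a b i : Fin d) : Prop := i = a ∨ (b = a.rev ∧ Md fr.m i)

/-- the positions of the root group -/
def Pat (a b i j : Fin d) : Prop :=
  (i = a ∧ j = b) ∨ (i = b.rev ∧ j = a.rev) ∨
    (b = a.rev ∧ ((i = a ∧ Md fr.m j) ∨ (Md fr.m i ∧ j = b)))

/-- the root subgroups -/
def Rt (a b : Fin d) : Subgroup (V ≃ₗ[F] V) where
  carrier := {g | fr.Ro a b → ∃ (v : V) (l : F) (h : φ.RD (fr.w a) v l), g = rho h ∧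
    v ∈ fr.Cs (fr.Pv a b) ∧ (b ≠ a.rev → l = 0)}
  one_mem' := fun h => ⟨0, 0, RD.zero (fr.sing a h.l), (rho_zero _).symm, zero_mem _, fun _ => rfl⟩
  mul_mem' := fun {g g'} hg hg' h => by
    obtain ⟨v, l, h1, rfl, hv, hl⟩ := hg h
    obtain ⟨v', l', h2, rfl, hv', hl'⟩ := hg' h
    refine ⟨_, _, _, rho_mul h1 h2, add_mem hv hv', fun hb => ?_⟩
    rw [hl hb, hl' hb, b_Cs hv hv', add_zero, add_zero]
    rintro i j (hi | ⟨-, rfl⟩) (hj | ⟨-, rfl⟩)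
    · exact absurd hi.1 hb
    · exact absurd hi.1 hb
    · exact absurd hj.1 hb
    · exact ⟨ne_rev (mt md_rev.1 h.r), fun h' => h.r (md_rev.1 h'.1)⟩
  inv_mem' := fun {g} hg h => by
    obtain ⟨v, l, h1, rfl, hv, hl⟩ := hg h
    exact ⟨_, _, _, rho_inv h1, neg_mem hv, fun hb => by simp [hl hb]⟩

/-- the reflection of a root, as a permutation -/
structure Pm (a b : Fin d) (π : Equiv.Perm (Fin d)) : Prop where
  sg : fr.Sg π
  l : π a = b
  r : π b = a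
  o : ∀ k, k ≠ a → k ≠ b → k ≠ a.rev → k ≠ b.rev → π k = k

variable {fr} {a b : Fin d} {x : V ≃ₗ[F] V} {π π' : Equiv.Perm (Fin d)}

lemma Ro.symm (h : fr.Ro a b) : fr.Ro b a := ⟨h.r, h.l, h.ne.symm⟩

lemma Ro.rev (h : fr.Ro a b) : fr.Ro a.rev b.rev :=
  ⟨mt md_rev.1 h.l, mt md_rev.1 h.r, Fin.rev_injective.ne h.ne⟩

lemma Ro.map (h : fr.Ro a b) (hπ : fr.Sg π) : fr.Ro (π a) (π b) :=
  ⟨mt hπ.md.1 h.l, mt hπ.md.1 h.r, π.injective.ne h.ne⟩

lemma ro_rev (h : ¬ Md fr.m a) : fr.Ro a a.rev := ⟨h, mt md_rev.1 h, ne_rev h⟩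

lemma eq_rev_comm : b = a.rev ↔ a = b.rev := by
  constructor <;> rintro rfl <;> rw [Fin.rev_rev]

lemma Pm.symm (h : fr.Pm a b π) : fr.Pm b a π := ⟨h.sg, h.r, h.l, fun k h1 h2 h3 h4 => h.o k h2 h1 h4 h3⟩

lemma Pm.rev (h : fr.Pm a b π) : fr.Pm a.rev b.rev π :=
  ⟨h.sg, by rw [h.sg.1, h.l], by rw [h.sg.1, h.r], fun k h1 h2 h3 h4 =>
    h.o k (by rwa [Fin.rev_rev] at h3) (by rwa [Fin.rev_rev] at h4) h1 h2⟩

lemma Pm.unique (h : fr.Pm a b π) (h' : fr.Pm a b π') : π = π' := by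
  ext1 k
  by_cases h1 : k = a
  · rw [h1, h.l, h'.l]
  by_cases h2 : k = b
  · rw [h2, h.r, h'.r]
  by_cases h3 : k = a.rev
  · rw [h3, h.rev.l, h'.rev.l]
  by_cases h4 : k = b.rev
  · rw [h4, h.rev.r, h'.rev.r]
  rw [h.o k h1 h2 h3 h4, h'.o k h1 h2 h3 h4]

lemma Pm.inv (h : fr.Pm a b π) : fr.Pm a b π⁻¹ :=
  ⟨h.sg.inv, π.injective (by simp [h.r]), π.injective (by simp [h.l]), fun k h1 h2 h3 h4 =>
    π.injective (by simp [h.o k h1 h2 h3 h4])⟩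

lemma Pm.inv_eq (h : fr.Pm a b π) : π⁻¹ = π := h.inv.unique h

lemma Pm.sq (h : fr.Pm a b π) : π * π = 1 := by
  nth_rw 1 [← h.inv_eq]
  exact inv_mul_cancel π

lemma Pm.conj (h : fr.Pm a b π) (h' : fr.Sg π') : fr.Pm (π' a) (π' b) (π' * π * π'⁻¹) := by
  refine ⟨(h'.mul h.sg).mul h'.inv, by simp [h.l], by simp [h.r], fun k h1 h2 h3 h4 => ?_⟩
  rw [← h'.1] at h3 h4
  have e : ∀ {j}, k ≠ π' j → π'⁻¹ k ≠ j := fun hj e => hj (by simp [← e])
  rw [Equiv.Perm.mul_apply, Equiv.Perm.mul_apply, h.o _ (e h1) (e h2) (e h3) (e h4)]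
  simp

lemma pm_swap (h : ¬ Md fr.m a) : fr.Pm a a.rev (Equiv.swap a a.rev) := by
  have key : ∀ k, k ≠ a → k ≠ a.rev → Equiv.swap a a.rev k = k := fun k =>
    Equiv.swap_apply_of_ne_of_ne
  refine ⟨⟨fun k => ?_, fun k hk => key k (fun e => h (e ▸ hk)) fun e => h (md_rev.1 (e ▸ hk))⟩,
    by simp, by simp, fun k h1 h2 _ _ => key k h1 h2⟩
  by_cases h1 : k = a
  · simp [h1]
  by_cases h2 : k = a.rev
  · simp [h2]
  rw [key k h1 h2, key _ (fun e => h2 (eq_rev_comm.1 e.symm)) (Fin.rev_injective.ne h1)]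

lemma pm_rf (h : fr.Ro a b) (hb : b ≠ a.rev) : fr.Pm a b (rf a b) := by
  have hb' : a ≠ b.rev := mt eq_rev_comm.2 hb
  have e1 : rf a b a = b := by
    simp [rf, Equiv.swap_apply_of_ne_of_ne (ne_rev h.l) hb']
  have e2 : rf a b b = a := by
    simp [rf, Equiv.swap_apply_of_ne_of_ne hb (ne_rev h.r)]
  have e3 : rf a b a.rev = b.rev := by
    simp [rf, Equiv.swap_apply_of_ne_of_ne hb'.symm (ne_rev h.r).symm]
  have e4 : rf a b b.rev = a.rev := by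
    simp [rf, Equiv.swap_apply_of_ne_of_ne (ne_rev h.l).symm hb.symm]
  have key : ∀ k, k ≠ a → k ≠ b → k ≠ a.rev → k ≠ b.rev → rf a b k = k := fun k h1 h2 h3 h4 => by
    simp [rf, Equiv.swap_apply_of_ne_of_ne h3 h4, Equiv.swap_apply_of_ne_of_ne h1 h2]
  refine ⟨⟨fun k => ?_, fun k hk => key k (fun e => h.l (e ▸ hk)) (fun e => h.r (e ▸ hk))
    (fun e => h.l (md_rev.1 (e ▸ hk))) fun e => h.r (md_rev.1 (e ▸ hk))⟩, e1, e2, key⟩
  by_cases h1 : k = a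
  · rw [h1, e1, e3]
  by_cases h2 : k = b
  · rw [h2, e2, e4]
  by_cases h3 : k = a.rev
  · rw [h3, e3, Fin.rev_rev, Fin.rev_rev, e1]
  by_cases h4 : k = b.rev
  · rw [h4, e4, Fin.rev_rev, Fin.rev_rev, e2]
  rw [key k h1 h2 h3 h4, key _ (fun e => h3 (eq_rev_comm.1 e.symm))
    (fun e => h4 (eq_rev_comm.1 e.symm)) (Fin.rev_injective.ne h1) (Fin.rev_injective.ne h2)]

lemma Ro.exists_pm (h : fr.Ro a b) : ∃ π, fr.Pm a b π := by
  by_cases hb : b = a.rev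
  · exact ⟨_, hb ▸ pm_swap h.l⟩
  · exact ⟨_, pm_rf h hb⟩

lemma b_ww (ha : ¬ Md fr.m a) {j : Fin d} (hj : j ≠ a.rev) : φ.b (fr.w a) (fr.w j) = 0 :=
  fr.orth a j hj fun h => ha h.1

lemma rt_EW (h : fr.Ro a b) (hx : x ∈ fr.Rt a b) : x ∈ φ.EW ⊤ := by
  obtain ⟨v, l, h1, rfl, -⟩ := hx h
  exact rho_EW h1 trivial trivial

lemma rt_isom (h : fr.Ro a b) (hx : x ∈ fr.Rt a b) : x ∈ φ.Isom := EW_le_Isom _ (rt_EW h hx)

lemma rt_pat (h : fr.Ro a b) (hx : x ∈ fr.Rt a b) (j : Fin d) :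
    x (fr.w j) - fr.w j ∈ fr.Cs fun i => fr.Pat a b i j := by
  obtain ⟨v, l, h1, rfl, hv, hl⟩ := hx h
  rw [rho_apply, add_sub_assoc, add_sub_cancel_left]
  have key : ¬ fr.Pat a b a j → φ.b v (fr.w j) = 0 := fun hp => by
    refine b_Cs (A' := (· = j)) hv (w_mem.2 rfl) ?_
    rintro i _ (⟨hb, hi⟩ | ⟨hb, rfl⟩) rfl
    · have : ¬ Md fr.m _ := fun hj => hp (Or.inr (Or.inr ⟨hb, Or.inl ⟨rfl, hj⟩⟩))
      exact ⟨fun e => this (e ▸ md_rev.2 hi), fun h' => this h'.2⟩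
    · exact ⟨fun e => hp (Or.inl ⟨rfl, by rw [e, Fin.rev_rev]⟩), fun h' => h.r (md_rev.1 h'.1)⟩
  refine sub_mem ?_ ?_
  · by_cases hj : j = a.rev
    · refine Submodule.smul_mem _ _ (Cs_mono ?_ hv)
      rintro i (⟨hb, hi⟩ | ⟨-, rfl⟩)
      · exact Or.inr (Or.inr ⟨hb, Or.inr ⟨hi, hj.trans hb.symm⟩⟩)
      · exact Or.inr (Or.inl ⟨rfl, hj⟩)
    · simp [b_ww h.l hj]
  · by_cases hp : fr.Pat a b a j
    · exact Submodule.smul_mem _ _ (w_mem.2 hp)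
    · by_cases hj : j = a.rev
      · rw [key hp, hl fun e => hp (Or.inl ⟨rfl, hj.trans e.symm⟩)]
        simp
      · simp [key hp, b_ww h.l hj]

lemma rt_uni' (h : fr.Ro a b) (hx : x ∈ fr.Rt a b) {r : Fin d → ℕ}
    (hr : ∀ i j, fr.Pat a b i j → r i < r j) : fr.Uni r x :=
  uni_iff.2 fun j => Cs_mono (fun i => hr i j) (rt_pat h hx j)

lemma Ro.pat_lt (h : fr.Ro a b) (hab : a < b) {i j : Fin d} (hp : fr.Pat a b i j) :
    fr.lv i < fr.lv j := by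
  rw [lv_lt]
  have h1 := h.l
  rcases hp with ⟨rfl, rfl⟩ | ⟨rfl, rfl⟩ | ⟨rfl, ⟨rfl, hj⟩ | ⟨hi, rfl⟩⟩
  · exact ⟨hab, fun h' => h.l h'.1⟩
  · exact ⟨Fin.rev_lt_rev.2 hab, fun h' => h.r (md_rev.1 h'.1)⟩
  · refine ⟨?_, fun h' => h.l h'.1⟩
    rw [md_iff] at h1 hj
    rw [Fin.lt_def, Fin.val_rev] at hab
    rw [Fin.lt_def]
    omega
  · refine ⟨?_, fun h' => h.r h'.2⟩
    rw [md_iff] at h1 hi
    rw [Fin.lt_def, Fin.val_rev] at hab ⊢
    omega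

lemma rt_uni (h : fr.Ro a b) (hab : a < b) (hx : x ∈ fr.Rt a b) : fr.Uni fr.lv x :=
  rt_uni' h hx fun _ _ => h.pat_lt hab

lemma rt_fix (h : fr.Ro a b) (hx : x ∈ fr.Rt a b) {j : Fin d} (hj : ¬ Md fr.m j) (h1 : j ≠ b)
    (h2 : j ≠ a.rev) : x (fr.w j) = fr.w j := by
  refine sub_eq_zero.1 (eq_zero_of_Cs (rt_pat h hx j) ?_)
  rintro i (h' | h' | ⟨-, h' | h'⟩)
  exacts [h1 h'.2, h2 h'.2, hj h'.2, h1 h'.2]

lemma rt_col (h : fr.Ro a b) (hx : x ∈ fr.Rt a b) : x (fr.w b) - fr.w b ∈ fr.Cs (fr.Pc a b) := by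
  refine Cs_mono ?_ (rt_pat h hx b)
  rintro i (h' | ⟨rfl, rfl⟩ | ⟨hb, h' | h'⟩)
  exacts [Or.inl h'.1, Or.inl (Fin.rev_rev _), Or.inl h'.1, Or.inr ⟨hb, h'.1⟩]

lemma rt_conj (h : fr.Ro a b) {n : V ≃ₗ[F] V} (hn : fr.Mo π n) (hx : x ∈ fr.Rt a b) :
    n * x * n⁻¹ ∈ fr.Rt (π a) (π b) := by
  intro h'
  obtain ⟨v, l, h1, rfl, hv, hl⟩ := hx h
  obtain ⟨t, -, e⟩ := hn.mon a h.l
  have h2 : φ.RD (t • fr.w (π a)) (n v) l := e ▸ h1.map hn.iso
  obtain ⟨h3, e3⟩ := rho_smul h2 (fr.sing _ h'.l)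
  have hb : π b = (π a).rev ↔ b = a.rev := by rw [← hn.sg.1, π.apply_eq_iff_eq]
  refine ⟨_, _, h3, (rho_conj h1 hn.iso).trans ((rho_congr _ _ e rfl rfl).trans e3),
    Submodule.smul_mem _ _ (Cs_mono ?_ (hn.map_Cs ?_ hv)), fun h4 => by rw [hl (mt hb.2 h4), mul_zero]⟩
  · rintro i (⟨h4, hi⟩ | ⟨h4, hi⟩)
    · exact Or.inl ⟨hb.2 h4, hn.sg.inv.md.1 hi⟩
    · exact Or.inr ⟨mt hb.1 h4, by rw [← hn.sg.1, ← hi]; simp⟩
  · rintro i j hi hj (⟨h4, -⟩ | ⟨-, rfl⟩)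
    · exact Or.inl ⟨h4, hj⟩
    · exact absurd (md_rev.1 hi) h.r

lemma Cs_Pv (hb : b ≠ a.rev) {v : V} (hv : v ∈ fr.Cs (fr.Pv a b)) :
    v = fr.c v b.rev • fr.w b.rev :=
  eq_smul_of_Cs (Cs_mono (fun _ hi => hi.elim (fun h => absurd h.1 hb) fun h => h.2) hv)

lemma rt_dual (h : fr.Ro a b) (hx : x ∈ fr.Rt a b) : x ∈ fr.Rt b.rev a.rev := by
  by_cases hb : b = a.rev
  · rwa [hb, Fin.rev_rev, ← hb]
  intro h'
  obtain ⟨v, l, h1, rfl, hv, hl⟩ := hx h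
  obtain rfl := hl hb
  obtain ⟨h2, e2⟩ := rho_swap h1
  have h3 : φ.RD (fr.c v b.rev • fr.w b.rev) (-φ.ε • fr.w a) 0 := Cs_Pv hb hv ▸ h2
  obtain ⟨h4, e4⟩ := rho_smul h3 (fr.sing _ h'.l)
  refine ⟨_, _, h4, e2.trans ((rho_congr _ _ (Cs_Pv hb hv) rfl rfl).trans e4),
    Submodule.smul_mem _ _ (Submodule.smul_mem _ _ (w_mem.2 (Or.inr ⟨?_, (Fin.rev_rev _).symm⟩))),
    fun _ => mul_zero _⟩
  rw [Fin.rev_rev]
  exact Ne.symm hb

lemma rt_entry (h : fr.Ro a b) (hx : x ∈ fr.Rt a b) (h0 : fr.c (x (fr.w b)) a = 0) : x = 1 := by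
  obtain ⟨v, l, h1, rfl, hv, hl⟩ := hx h
  by_cases hb : b = a.rev
  · have hv0 : v ∈ fr.V0 := Cs_mono (fun _ hi => hi.elim (fun h => h.2) fun h => absurd hb h.1) hv
    have h2 : φ.b v (fr.w b) = 0 := φ.b_symm_zero ((b_w_eq_zero h.r).2 (hv0 _ (mt md_rev.1 h.r)))
    have h3 : φ.b (fr.w a) (fr.w b) = fr.J a := by rw [hb, J]
    simp [rho_apply, c_ne h.ne.symm, hv0 a h.l, h2, h3, φ.ε_ne, J_ne h.l] at h0
    subst h0
    obtain rfl : v = 0 := fr.aniso v hv0 (by rw [h1.val, map_zero])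
    exact rho_zero h1
  · obtain rfl := hl hb
    have h2 : φ.b v (fr.w b) = φ.σ (fr.c v b.rev) * fr.J b.rev := by
      conv_lhs => rw [Cs_Pv hb hv]
      rw [b_smul_left, J, Fin.rev_rev]
    simp [rho_apply, c_ne h.ne.symm, b_ww h.l hb, h2, φ.ε_ne, J_ne (mt md_rev.1 h.r)] at h0
    obtain rfl : v = 0 := by rw [Cs_Pv hb hv, h0, zero_smul]
    exact rho_zero h1

lemma rt_exists (h : fr.Ro a b) {z : V} (hQ : φ.Q z = 0) (hz : z - fr.w b ∈ fr.Cs (fr.Pc a b)) :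
    ∃ x ∈ fr.Rt a b, x (fr.w b) = z := by
  have h1 := sub_mem_Cs (a := a) hz
  set t := fr.c (z - fr.w b) a
  by_cases hb : b = a.rev
  · have hv0 : z - fr.w b - t • fr.w a ∈ fr.V0 :=
      Cs_mono (fun _ hi => hi.1.elim (fun h => absurd h hi.2) fun h => h.2) h1
    set v := z - fr.w b - t • fr.w a with hv
    have h2 : φ.b (fr.w b) v = 0 := (b_w_eq_zero h.r).2 (hv0 _ (mt md_rev.1 h.r))
    have h2' : φ.b (fr.w a) v = 0 := (b_w_eq_zero h.l).2 (hv0 _ (mt md_rev.1 h.l))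
    have h3 : φ.b (fr.w a) (fr.w b) = fr.J a := by rw [hb, J]
    have h4 : φ.b (fr.w b) (fr.w a) = φ.ε * fr.J a := by rw [φ.herm, h3, σ_J h.l]
    have h5 : z = fr.w b + (v + t • fr.w a) := by rw [hv]; abel
    have h6 : φ.Q v = φ.md (-(φ.ε * fr.J a * t)) := by
      rw [h5, Q_add, Q_add, fr.sing b h.r, φ.Q_smul_zero (fr.sing a h.l), map_smul,
        φ.b_symm_zero h2', smul_zero, map_zero, map_add, h2, map_smul, h4] at hQ
      rw [map_neg, eq_neg_iff_add_eq_zero, ← hQ]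
      simp [mul_comm]
    have h7 : φ.RD (fr.w a) (fr.J a • v) (-(φ.ε * fr.J a * t)) :=
      ⟨fr.sing a h.l, by simp [h2'], by rw [φ.Q_smul' h6, σ_J h.l, J_sq h.l, one_mul]⟩
    refine ⟨rho h7, fun _ => ⟨_, _, h7, rfl, Submodule.smul_mem _ _
      (Cs_mono (fun i hi => Or.inl ⟨hb, hi⟩) hv0), fun h' => absurd hb h'⟩, ?_⟩
    rw [rho_apply, h3, b_smul_left, φ.b_symm_zero h2, smul_smul, J_sq h.l, h5]
    match_scalars
    · ring
    · ring
    · linear_combination (t * φ.ε * φ.ε) * J_sq h.l + t * φ.ε_mul_ε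
  · have h2 : z = fr.w b + t • fr.w a := by
      have := eq_zero_of_Cs h1 fun i hi => hi.1.elim hi.2 fun h => hb h.1
      rw [sub_sub, sub_eq_zero] at this
      exact this
    have hb' : b.rev ≠ a.rev := Fin.rev_injective.ne h.ne.symm
    have h3 : φ.RD (fr.w a) (-(φ.σ t * fr.J b) • fr.w b.rev) 0 :=
      ⟨fr.sing a h.l, by simp [b_ww h.l hb'], by
        rw [φ.Q_smul_zero (fr.sing _ (mt md_rev.1 h.r)), map_zero]⟩
    refine ⟨rho h3, fun _ => ⟨_, _, h3, rfl, Submodule.smul_mem _ _ (w_mem.2 (Or.inr ⟨hb, rfl⟩)),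
      fun _ => rfl⟩, ?_⟩
    have h4 : φ.b (fr.w b.rev) (fr.w b) = φ.ε * fr.J b := by rw [← J_rev' h.r, J, Fin.rev_rev]
    rw [rho_apply, b_ww h.l hb, b_smul_left, h4, h2, map_neg, map_mul, σσ', σ_J h.r]
    match_scalars
    · ring
    · ring
    · linear_combination (t * φ.ε * φ.ε) * J_sq h.r + t * φ.ε_mul_ε

lemma rt_exists' (h : fr.Ro a b) {x : V ≃ₗ[F] V} (hx : x ∈ fr.Rt a b) (h1 : x ≠ 1) :
    ∃ y ∈ fr.Rt b a, y (fr.w a) = (fr.c (x (fr.w b)) a)⁻¹ • x (fr.w b) := by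
  have h2 : fr.c (x (fr.w b)) a ≠ 0 := fun e => h1 (rt_entry h hx e)
  refine rt_exists h.symm (φ.Q_smul_zero (by rw [Isom.Q (rt_isom h hx), fr.sing b h.r]) _)
    fun i hi => ?_
  by_cases hia : i = a
  · simp [hia, h2]
  · have h3 := rt_col h hx i (by
      rintro (e | ⟨e, hm⟩)
      exacts [hia e, hi (Or.inr ⟨eq_rev_comm.1 e, hm⟩)])
    rw [c_sub, c_ne fun e => hi (Or.inl e.symm), sub_zero] at h3
    simp [h3, c_ne (Ne.symm hia)]

/-- **Rank one.** -/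
theorem rt_one (h : fr.Ro a b) (hx : x ∈ fr.Rt a b) (h1 : x ≠ 1) :
    ∃ y' ∈ fr.Rt b a, ∃ y ∈ fr.Rt b a, ∃ π, fr.Pm a b π ∧ fr.Mo π (y' * x * y) ∧
      (y' * x * y) (fr.w b) = fr.c (x (fr.w b)) a • fr.w a := by
  obtain ⟨y', hy', e'⟩ := rt_exists' h hx h1
  obtain ⟨y, hy, e⟩ := rt_exists' h (inv_mem hx) (by simpa using h1)
  have h2 : fr.c (x (fr.w b)) a ≠ 0 := fun e => h1 (rt_entry h hx e)
  have h3 : fr.c (x⁻¹ (fr.w b)) a ≠ 0 := fun e => h1 (inv_eq_one.1 (rt_entry h (inv_mem hx) e))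
  obtain ⟨π, hπ⟩ := h.exists_pm
  have hy2 := inv_mem hy'
  have eb : (y'⁻¹ * x * y) (fr.w b) = fr.c (x (fr.w b)) a • fr.w a := by
    rw [LinearEquiv.mul_apply, LinearEquiv.mul_apply, rt_fix h.symm hy h.r h.ne.symm (ne_rev h.r)]
    refine y'.injective ?_
    rw [app_inv, map_smul, e', smul_smul, mul_inv_cancel₀ h2, one_smul]
  have ea : (y'⁻¹ * x * y) (fr.w a) = (fr.c (x⁻¹ (fr.w b)) a)⁻¹ • fr.w b := by
    rw [LinearEquiv.mul_apply, LinearEquiv.mul_apply, e, map_smul, app_inv, map_smul,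
      rt_fix h.symm hy2 h.r h.ne.symm (ne_rev h.r)]
  have hiso : y'⁻¹ * x * y ∈ φ.Isom :=
    mul_mem (mul_mem (rt_isom h.symm hy2) (rt_isom h hx)) (rt_isom h.symm hy)
  refine ⟨_, hy2, y, hy, π, hπ, ⟨hiso, hπ.sg, fun j hj => ?_⟩, eb⟩
  by_cases j1 : j = a
  · exact ⟨_, inv_ne_zero h3, by rw [j1, ea, hπ.l]⟩
  by_cases j2 : j = b
  · exact ⟨_, h2, by rw [j2, eb, hπ.r]⟩
  by_cases j3 : j ≠ a.rev ∧ j ≠ b.rev
  · refine ⟨1, one_ne_zero, ?_⟩
    rw [LinearEquiv.mul_apply, LinearEquiv.mul_apply, rt_fix h.symm hy hj j1 j3.2,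
      rt_fix h hx hj j2 j3.1, rt_fix h.symm hy2 hj j1 j3.2, hπ.o j j1 j2 j3.1 j3.2, one_smul]
  have hb : b ≠ a.rev := by
    rintro rfl
    exact j3 ⟨j2, by rwa [Fin.rev_rev]⟩
  have key : ∀ {a b : Fin d}, fr.Ro a b → b ≠ a.rev → ∀ x ∈ fr.Rt a b,
      ∀ z ∈ fr.Cs fun i => i = a.rev ∨ i = b.rev, x z ∈ fr.Cs fun i => i = a.rev ∨ i = b.rev := by
    intro a b h hb x hx z hz
    refine map_Cs' x ?_ hz
    rintro _ (rfl | rfl)
    · rw [← sub_add_cancel (x _) (fr.w a.rev)]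
      refine add_mem (Cs_mono ?_ (rt_pat h hx _)) (w_mem.2 (Or.inl rfl))
      rintro i (h' | h' | h')
      exacts [absurd h'.2.symm hb, Or.inr h'.1, absurd h'.1 hb]
    · rw [rt_fix h hx h.rev.r (ne_rev h.r).symm h.rev.ne.symm]
      exact w_mem.2 (Or.inr rfl)
  have hb' : a ≠ b.rev := mt eq_rev_comm.2 hb
  have key' : ∀ x ∈ fr.Rt b a, ∀ z ∈ fr.Cs fun i => i = a.rev ∨ i = b.rev,
      x z ∈ fr.Cs fun i => i = a.rev ∨ i = b.rev := fun x hx z hz =>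
    Cs_mono (fun _ => Or.symm) (key h.symm hb' x hx z (Cs_mono (fun _ => Or.symm) hz))
  have h4 : (y'⁻¹ * x * y) (fr.w j) ∈ fr.Cs fun i => i = a.rev ∨ i = b.rev :=
    key' _ hy2 _ (key h hb _ hx _ (key' _ hy _ (w_mem.2 (by tauto))))
  generalize y'⁻¹ * x * y = n at *
  have fin : ∀ {a b : Fin d} {t : F}, fr.Ro a b → t ≠ 0 → n (fr.w b) = t • fr.w a →
      n (fr.w a.rev) ∈ fr.Cs (fun i => i = a.rev ∨ i = b.rev) →
      ∃ s : F, s ≠ 0 ∧ n (fr.w a.rev) = s • fr.w b.rev := by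
    intro a b t h ht e hm
    have h5 : fr.c (n (fr.w a.rev)) a.rev = 0 := by
      have := Isom.b hiso (fr.w b) (fr.w a.rev)
      rw [e, b_smul_left, b_w h.l, b_ww h.r h.rev.ne] at this
      simpa [ht, J_ne h.l] using this
    have h6 := eq_smul_of_Cs (a := b.rev) (x := n (fr.w a.rev)) fun i hi => by
      by_cases hia : i = a.rev
      · rw [hia, h5]
      · exact hm i fun h' => h'.elim hia hi
    refine ⟨_, fun h0 => ?_, h6⟩
    rw [h0, zero_smul, n.map_eq_zero_iff] at h6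
    exact fr.w.ne_zero _ h6
  by_cases j4 : j = a.rev
  · rw [j4, hπ.rev.l]
    exact fin h h2 eb (j4 ▸ h4)
  · have j5 : j = b.rev := by tauto
    rw [j5, hπ.rev.r]
    exact fin h.symm (inv_ne_zero h3) ea (Cs_mono (fun _ => Or.symm) (j5 ▸ h4))

variable (fr) in
/-- the group generated by the positive root subgroups -/
def Ur : Subgroup (V ≃ₗ[F] V) := Subgroup.closure {g | ∃ a b, fr.Ro a b ∧ a < b ∧ g ∈ fr.Rt a b}

lemma mem_Ur (h : fr.Ro a b) (hab : a < b) (hx : x ∈ fr.Rt a b) : x ∈ fr.Ur :=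
  Subgroup.subset_closure ⟨a, b, h, hab, hx⟩

lemma rho_mem_Ur {k : Fin d} (hk : k.val < fr.m) (s : Finset (Fin d))
    (hs : ∀ i ∈ s, ¬ Md fr.m i ∧ k < i.rev ∧ i ≠ k) : ∀ (v : V) (l : F) (h : φ.RD (fr.w k) v l),
      v ∈ fr.Cs (fun i => i ∈ s ∨ i = k ∨ Md fr.m i) → rho h ∈ fr.Ur := by
  have hk' : ¬ Md fr.m k := fun h => absurd h.1 (not_le.2 hk)
  induction s using Finset.induction_on with
  | empty =>
    intro v l h hv
    have h1 := sub_mem_Cs (a := k) hv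
    have h2 : φ.RD (fr.w k) (v - fr.c v k • fr.w k + fr.c v k • fr.w k) l := by
      rwa [sub_add_cancel]
    obtain ⟨h3, e⟩ := rho_shift h2
    refine mem_Ur (ro_rev hk') ?_ fun _ => ⟨_, _, h3,
      (rho_congr _ _ rfl (sub_add_cancel _ _).symm rfl).trans e,
      Cs_mono (fun i hi => Or.inl ⟨rfl, ?_⟩) h1, fun h' => absurd rfl h'⟩
    · have := fr.le
      rw [Fin.lt_def, Fin.val_rev]
      omega
    · simpa [hi.2] using hi.1
  | insert i s hi ih =>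
    intro v l h hv
    obtain ⟨h1, h2, h3⟩ := hs i (Finset.mem_insert_self _ _)
    have h4 : φ.RD (fr.w k) (fr.c v i • fr.w i) 0 :=
      ⟨h.sing, by simp [b_ww hk' (mt eq_rev_comm.1 h2.ne)], by
        rw [φ.Q_smul_zero (fr.sing _ h1), map_zero]⟩
    have h5 : rho h = rho h4 * rho (h4.neg.add h) := by
      rw [← rho_mul h4.neg h, ← rho_inv h4, mul_inv_cancel_left]
    rw [h5]
    refine mul_mem (mem_Ur ⟨hk', mt md_rev.1 h1, h2.ne⟩ h2 fun _ => ⟨_, _, h4, rfl,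
      Submodule.smul_mem _ _ (w_mem.2 (Or.inr ⟨Fin.rev_injective.ne h3, (Fin.rev_rev _).symm⟩)),
      fun _ => rfl⟩) (ih (fun j hj => hs j (Finset.mem_insert_of_mem hj)) _ _ _ ?_)
    rw [neg_add_eq_sub]
    refine Cs_mono (fun j hj => ?_) (sub_mem_Cs (a := i) hv)
    simpa [hj.2] using hj.1

lemma rho_mem_Ur' {k : Fin d} (hk : k.val < fr.m) {v : V} {l : F} (h : φ.RD (fr.w k) v l)
    (hv : v ∈ fr.Cs fun i => k ≤ i.rev) : rho h ∈ fr.Ur := by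
  classical
  have hk' : ¬ Md fr.m k := fun h => absurd h.1 (not_le.2 hk)
  refine rho_mem_Ur hk (Finset.univ.filter fun i => ¬ Md fr.m i ∧ k < i.rev ∧ i ≠ k)
    (fun i hi => (Finset.mem_filter.1 hi).2) v l h fun i hi => ?_
  by_cases h1 : i = k.rev
  · rw [h1, ← b_w_eq_zero hk', h.orth]
  · refine hv i fun h2 => hi ?_
    by_contra h3
    push Not at h3
    exact h3.1 (Finset.mem_filter.2 ⟨Finset.mem_univ _, h3.2.2,
      lt_of_le_of_ne h2 (mt eq_rev_comm.2 h1), h3.2.1⟩)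

lemma Ur_le [FiniteDimensional F V] {g : V ≃ₗ[F] V} (hg : g ∈ fr.Ur) :
    g ∈ φ.EW ⊤ ∧ fr.Uni fr.lv g := by
  induction hg using Subgroup.closure_induction with
  | mem x hx =>
    obtain ⟨a, b, h, hab, hx⟩ := hx
    exact ⟨rt_EW h hx, rt_uni h hab hx⟩
  | one => exact ⟨one_mem _, uni_one⟩
  | mul x y _ _ hx hy => exact ⟨mul_mem hx.1 hy.1, hx.2.mul hy.2⟩
  | inv x _ hx => exact ⟨inv_mem hx.1, hx.2.inv⟩

/-- an Eichler-Siegel transformation which moves `w a` to a given singular vector -/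
lemma exists_move {k : ℕ} {a a' : Fin d} (e : a = a'.rev) (ha : ¬ Md fr.m a)
    (hk : k ≤ a.val ∧ k ≤ a.rev.val) {z : V} (hQ : φ.Q z = 0) (h1 : fr.c z a = 1)
    (hz : z ∈ fr.Cs fun i => k ≤ i.val ∧ k ≤ i.rev.val) :
    ∃ (v : V) (l : F) (h : φ.RD (fr.w a') v l), rho h (fr.w a) = z ∧
      v ∈ fr.Cs (fun i => k ≤ i.val ∧ k ≤ i.rev.val) ∧
      ∀ j, j.val < k ∨ j.rev.val < k → rho h (fr.w j) = fr.w j := by
  have ha' : ¬ Md fr.m a' := fun h => ha (e ▸ md_rev.2 h)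
  have h2 : ∀ y, fr.c y a = 1 → φ.b (fr.J a' • fr.w a') y = 1 := fun y hy => by
    rw [b_smul_left, b_w ha', ← e, hy, σ_J ha', mul_one, J_sq ha']
  obtain ⟨l, h, e0⟩ := step0 ((fr.sing a ha).trans hQ.symm) (φ.Q_smul_zero (fr.sing _ ha') _)
    (h2 _ (fr.c_self a)) (h2 _ h1)
  obtain ⟨h', e'⟩ := rho_smul h (fr.sing _ ha')
  have hv : φ.σ (fr.J a') • (z - fr.w a) ∈ fr.Cs fun i => k ≤ i.val ∧ k ≤ i.rev.val :=
    Submodule.smul_mem _ _ (sub_mem hz (w_mem.2 hk))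
  refine ⟨_, _, h', e' ▸ e0, hv, fun j hj => rho_fix _ (b_ww ha' ?_) (b_Cs (A' := (· = j)) hv
    (w_mem.2 rfl) ?_)⟩
  · rintro rfl
    rw [← e] at hj
    omega
  · rintro i _ hi rfl
    refine ⟨?_, fun h => ?_⟩
    · rintro rfl
      rw [Fin.rev_rev] at hj
      omega
    · have h3 := h.2
      unfold Md at ha h3
      omega

/-- **Reduction of triangular isometries.** -/
theorem reduce [FiniteDimensional F V] {g : V ≃ₗ[F] V} (hg : g ∈ φ.Isom) (ht : fr.Tri fr.lv g) :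
    ∃ r ∈ fr.Ur, fr.Mo 1 (r⁻¹ * g) := by
  have key : ∀ k ≤ fr.m, ∃ r ∈ fr.Ur, ∀ a : Fin d, a.val < k ∨ a.rev.val < k →
      ∃ t : F, t ≠ 0 ∧ (r⁻¹ * g) (fr.w a) = t • fr.w a := by
    intro k
    induction k with
    | zero => exact fun _ => ⟨1, one_mem _, fun a ha => by omega⟩
    | succ k ih =>
      intro hk
      obtain ⟨r, hr, h⟩ := ih (by omega)
      have hg' : r⁻¹ * g ∈ φ.Isom := mul_mem (inv_mem (EW_le_Isom _ (Ur_le hr).1)) hg
      have ht' : fr.Tri fr.lv (r⁻¹ * g) := (Ur_le hr).2.inv.tri.mul ht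
      have hle := fr.le
      let a : Fin d := ⟨k, by omega⟩
      have hak : a.val = k := rfl
      have hak' : a.rev.val = d - (k + 1) := rfl
      have ha : ¬ Md fr.m a := fun h => absurd h.1 (by omega)
      have hp : ∀ x ∈ fr.Cs fun i => k ≤ i.val ∧ k ≤ i.rev.val,
          (r⁻¹ * g) x ∈ fr.Cs fun i => k ≤ i.val ∧ k ≤ i.rev.val := by
        have := perp_Cs (fr := fr) (A := fun i => i.val < k ∨ i.rev.val < k)
          (fun i hi hm => by unfold Md at hm; omega) hg' fun x hx => map_Cs' _ (fun j hj => by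
            obtain ⟨t, -, e⟩ := h j hj
            rw [e]
            exact Submodule.smul_mem _ _ (w_mem.2 hj)) hx
        simpa only [Fin.rev_rev, not_or, not_lt, and_comm] using this
      generalize hG : r⁻¹ * g = g' at *
      have h1 : g' (fr.w a) = fr.c (g' (fr.w a)) a • fr.w a := eq_smul_of_Cs fun i hi => by
        by_cases h2 : k ≤ i.val
        · refine tri_iff.1 ht' a i fun h3 => ?_
          have h4 : fr.lv a < fr.lv i :=
            lv_lt.2 ⟨lt_of_le_of_ne h2 (Ne.symm hi), fun h => ha h.1⟩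
          omega
        · exact hp _ (w_mem.2 (by omega)) i fun h => h2 h.1
      set t := fr.c (g' (fr.w a)) a
      have h2 : φ.σ t * fr.c (g' (fr.w a.rev)) a.rev = 1 := by
        have := Isom.b hg' (fr.w a) (fr.w a.rev)
        rw [h1, b_smul_left, b_w ha, b_w ha, c_self] at this
        exact mul_left_cancel₀ (J_ne ha) (by linear_combination this)
      have h3 : φ.σ t ≠ 0 := left_ne_zero_of_mul_eq_one h2
      have hk2 : k ≤ a.rev.val ∧ k ≤ a.rev.rev.val := by rw [Fin.rev_rev]; omega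
      obtain ⟨v, l, hρ, e, hv, hfix⟩ := exists_move (k := k) (z := φ.σ t • g' (fr.w a.rev)) rfl
        (mt md_rev.1 ha) hk2 (φ.Q_smul_zero (by rw [Isom.Q hg', fr.sing _ (mt md_rev.1 ha)]) _)
        (by rw [c_smul, h2]) (Submodule.smul_mem _ _ (hp _ (w_mem.2 hk2)))
      refine ⟨r * rho hρ, mul_mem hr (rho_mem_Ur' (by omega) hρ (Cs_mono (fun i hi => hi.2) hv)),
        fun j hj => ?_⟩
      rw [mul_inv_rev, mul_assoc, hG, LinearEquiv.mul_apply]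
      by_cases h4 : j.val < k ∨ j.rev.val < k
      · obtain ⟨s, hs, e'⟩ := h j h4
        exact ⟨s, hs, by rw [e', map_smul, inv_fix (hfix j h4)]⟩
      by_cases h5 : j = a
      · refine ⟨t, fun h0 => h3 (by rw [h0, map_zero]), ?_⟩
        rw [h5, h1, map_smul, inv_fix (rho_fix hρ hρ.uu hρ.vu)]
      · obtain rfl : j = a.rev := by
          rw [eq_rev_comm]
          have : j.val ≠ k := fun h => h5 (Fin.ext h)
          exact Fin.ext (by omega)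
        refine ⟨(φ.σ t)⁻¹, inv_ne_zero h3, (rho hρ).injective ?_⟩
        rw [app_inv, map_smul, e, smul_smul, inv_mul_cancel₀ h3, one_smul]
  obtain ⟨r, hr, h⟩ := key _ le_rfl
  exact ⟨r, hr, mul_mem (inv_mem (EW_le_Isom _ (Ur_le hr).1)) hg, sg_one,
    fun a ha => h a (by unfold Md at ha; omega)⟩

lemma mem_Ur_of_uni [FiniteDimensional F V] {g : V ≃ₗ[F] V} (hg : g ∈ φ.Isom)
    (hu : fr.Uni fr.lv g) : g ∈ fr.Ur := by
  obtain ⟨r, hr, h⟩ := reduce hg hu.tri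
  rwa [← inv_mul_eq_one.1 (h.eq_one_of_uni ((Ur_le hr).2.inv.mul hu))]

end Fr

end Vale.Agent.P183SB
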