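import Vale.Agent.P183SB.Torus
import Vale.Agent.P183K.Def.TGen

/-!
P183: the stabiliser of a singular vector is generated by `p`-elements.
-/

namespace Vale.Agent.P183SB

open Module Subgroup Vale.Agent.P183CF Vale.Agent.P183CF.Form Vale.Agent.P183M Vale.Agent.P240.H195
  Vale.Agent.P183CR Vale.Agent.P183K.Def

/-- A parabolic subgroup is the product of any normal subgroup containing `U` and the torus of the
nodes outside. -/
theorem tor_abs {L : Type*} [Group L] [Finite L] {p : ℕ} {B N U : Subgroup L} {S : Set L}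
    (h : SBA p B N U S) (hG : normalClosure (U : Set L) = ⊤) {P H : Subgroup L} (hBP : B ≤ P)
    (hH : ∀ g ∈ P, ∀ x ∈ H, g * x * g⁻¹ ∈ H) (hU : U ≤ H) {g : L} (hg : g ∈ P) :
    ∃ x ∈ H, ∃ k ∈ T1 B N U {s ∈ S | s ∉ P}, g = x * k := by
  have hM : ∀ s ∈ P, Ms U s ≤ H := fun s hs => Ms_le hU fun u hu => hH s hs u (hU hu)
  have h1 : ∃ x ∈ H, ∃ t ∈ B ⊓ N, g = x * t := by
    rw [← h.toBN0.closure_eq_of h.bruhat hBP] at hg
    induction hg using closure_induction with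
    | mem s hs =>
      rcases hs with hs | hs
      · obtain ⟨u, hu, t, ht, ht', e⟩ := h.split s hs
        exact ⟨u, hU hu, t, ⟨ht, ht'⟩, e⟩
      · obtain ⟨a, h1, h2, h3⟩ := exists_Gd h.toSB h.prime hs.1
        exact ⟨a, hM s hs.2 h2, _, (B ⊓ N).inv_mem ⟨h3, N.mul_mem (N.inv_mem (h.sub s hs.1)) h1⟩,
          by group⟩
    | one => exact ⟨1, one_mem _, 1, one_mem _, (one_mul _).symm⟩
    | mul a b _ _ ha hb =>
      obtain ⟨x, hx, t, ht, rfl⟩ := ha
      obtain ⟨x', hx', t', ht', rfl⟩ := hb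
      exact ⟨_, mul_mem hx (hH t (hBP ht.1) x' hx'), _, mul_mem ht ht', by group⟩
    | inv a _ ha =>
      obtain ⟨x, hx, t, ht, rfl⟩ := ha
      exact ⟨_, hH _ (hBP (inv_mem ht).1) _ (inv_mem hx), _, inv_mem ht, by group⟩
  obtain ⟨x, hx, t, ht, rfl⟩ := h1
  have h2 : t ∈ T1 B N U S := mem_T1_of_G0 h.toSB h.prime subset_rfl ht.1 ht.2
    (by rw [← normalClosure_eq h.toSB h.prime, hG]; exact mem_top t)
  have h3 : ∃ y ∈ H, ∃ k ∈ T1 B N U {s ∈ S | s ∉ P}, t = y * k := by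
    clear ht hg
    induction h2 using closure_induction with
    | mem t ht =>
      obtain ⟨h1, h2, s, hs, h3⟩ := ht
      by_cases hP : s ∈ P
      · exact ⟨t, hM s hP h3, 1, one_mem _, (mul_one _).symm⟩
      · exact ⟨1, one_mem _, t, mem_T1 ⟨hs, hP⟩ h1 h2 h3, (one_mul _).symm⟩
    | one => exact ⟨1, one_mem _, 1, one_mem _, (one_mul _).symm⟩
    | mul a b _ _ ha hb =>
      obtain ⟨x, hx, t, ht, rfl⟩ := ha
      obtain ⟨x', hx', t', ht', rfl⟩ := hb
      exact ⟨_, mul_mem hx (hH t (hBP (T1_le ht).1) x' hx'), _, mul_mem ht ht', by group⟩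
    | inv a _ ha =>
      obtain ⟨x, hx, t, ht, rfl⟩ := ha
      exact ⟨_, hH _ (hBP (T1_le (inv_mem ht)).1) _ (inv_mem hx), _, inv_mem ht, by group⟩
  obtain ⟨y, hy, k, hk, rfl⟩ := h3
  exact ⟨_, mul_mem hx hy, k, hk, (mul_assoc _ _ _).symm⟩

variable {F V : Type*} [Field F] [AddCommGroup V] [Module F V] {φ : Form F V}

namespace Fr

variable {d : ℕ} {fr : Fr φ d} {a b : Fin d} {g g' : V ≃ₗ[F] V}

variable (fr) in
/-- a minor of order two -/
noncomputable def del (a b : Fin d) (g : V ≃ₗ[F] V) : F :=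
  fr.c (g (fr.w a)) a * fr.c (g (fr.w b)) b - fr.c (g (fr.w a)) b * fr.c (g (fr.w b)) a

lemma eq_two (hab : a ≠ b) {x : V} (hx : x ∈ fr.Cs fun i => i = a ∨ i = b) :
    x = fr.c x a • fr.w a + fr.c x b • fr.w b := by
  refine fr.ext_c fun i => ?_
  by_cases h1 : i = a
  · simp [h1, c_ne hab.symm]
  by_cases h2 : i = b
  · simp [h2, c_ne hab]
  simp [hx i (not_or.2 ⟨h1, h2⟩), c_ne (Ne.symm h1), c_ne (Ne.symm h2)]

lemma del_mul (hab : a ≠ b)
    (h : ∀ x ∈ fr.Cs fun i => i = a ∨ i = b, g' x ∈ fr.Cs fun i => i = a ∨ i = b) :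
    fr.del a b (g * g') = fr.del a b g * fr.del a b g' := by
  simp only [del, LinearEquiv.mul_apply]
  conv_lhs => rw [eq_two hab (h _ (w_mem.2 (Or.inl rfl))), eq_two hab (h _ (w_mem.2 (Or.inr rfl)))]
  simp only [map_add, map_smul, c_add, c_smul]
  ring

lemma del_one (hab : a ≠ b) : fr.del a b 1 = 1 := by simp [del, c_ne hab]

variable [FiniteDimensional F V]

variable (fr) in
/-- determinant one on the first two coordinates, unitriangular in the middle -/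
def Zs (hab : a ≠ b) : Subgroup (V ≃ₗ[F] V) where
  carrier := {g | (∀ x ∈ fr.Cs fun i => i = a ∨ i = b, g x ∈ fr.Cs fun i => i = a ∨ i = b) ∧
    fr.del a b g = 1 ∧ (∀ k, 2 ≤ k → k + 2 ≤ d → ∀ x ∈ fr.Lv fr.lv k, g x ∈ fr.Lv fr.lv k) ∧
      ∀ k, 2 ≤ k → k + 2 < d → ∀ x ∈ fr.Lv fr.lv (k + 1), g x - x ∈ fr.Lv fr.lv k}
  one_mem' := ⟨fun _ h => h, del_one hab, fun _ _ _ _ h => h, fun _ _ _ _ _ => by simp⟩
  mul_mem' := fun {g g'} h h' => ⟨fun x hx => h.1 _ (h'.1 x hx), by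
    rw [del_mul hab h'.1, h.2.1, h'.2.1, one_mul], fun k h1 h2 x hx => h.2.2.1 k h1 h2 _
      (h'.2.2.1 k h1 h2 x hx), fun k h1 h2 x hx => by
    simpa using add_mem (h.2.2.1 k h1 h2.le _ (h'.2.2.2 k h1 h2 x hx)) (h.2.2.2 k h1 h2 x hx)⟩
  inv_mem' := fun {g} h => ⟨inv_mem_of h.1, by
    have := del_mul (g := g⁻¹) hab h.1
    rwa [inv_mul_cancel, del_one hab, h.2.1, mul_one, eq_comm] at this,
    fun k h1 h2 => inv_mem_of (h.2.2.1 k h1 h2), fun k h1 h2 x hx => by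
    simpa using neg_mem (h.2.2.2 k h1 h2 _ (inv_mem_of (h.2.2.1 (k + 1) (by omega) h2) x hx))⟩

lemma U_le_Zs (hm : 2 ≤ fr.m) (hab : a ≠ b) (ha : a.val = 0) (hb : b.val = 1) :
    fr.U ≤ fr.Zs hab := by
  intro u hu
  refine ⟨fun x hx => Cs_mono (fun i hi => ?_) (hu.2.tri.low hm (Cs_mono (fun i hi => ?_) hx)), ?_,
    fun k _ _ => hu.2.tri k, fun k _ _ => hu.2 k⟩
  · simp only [Fin.ext_iff]
    omega
  · rcases hi with rfl | rfl <;> omega
  · rw [del, hu.2.c_self, hu.2.c_self, tri_iff.1 hu.2.tri a b]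
    · simp
    · exact not_le.2 (lv_lt.2 ⟨Fin.lt_def.2 (by omega), fun h => not_md (by omega) h.1⟩)

lemma conj_Zs (hm : 2 ≤ fr.m) (hab : a ≠ b) (ha : a.val = 0) (hb : b.val = 1)
    {π : Equiv.Perm (Fin d)} (hπ : fr.Pm a b π) {s : V ≃ₗ[F] V} (hs : fr.Mo π s)
    (hg : g ∈ fr.Zs hab) : s * g * s⁻¹ ∈ fr.Zs hab := by
  have h1 : ∀ x ∈ fr.Cs fun i => i = a ∨ i = b, s x ∈ fr.Cs fun i => i = a ∨ i = b :=
    fun x hx => map_Cs' s (fun j hj => by
      obtain ⟨t, -, e⟩ := hs.mon j (not_md (by rcases hj with rfl | rfl <;> omega))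
      rw [e]
      refine Submodule.smul_mem _ _ (w_mem.2 ?_)
      rcases hj with rfl | rfl
      exacts [Or.inr hπ.l, Or.inl hπ.r]) hx
  have h2 : ∀ k, 2 ≤ k → k + 2 ≤ d → ∀ x ∈ fr.Lv fr.lv k, s x ∈ fr.Lv fr.lv k :=
    fun k h2 h3 x hx => Cs_mono (fun i hi => by
      have := hπ.inv.val i
      have := fr.le
      by_cases h4 : Md fr.m i
      · rwa [hπ.sg.inv.2 i h4] at hi
      · rw [lv_of_not (mt hπ.sg.inv.md.1 h4)] at hi
        rw [lv_of_not h4]
        omega) (hs.map_Cs (fun a b ha hb => by rw [lv_md ha hb]; exact id) hx)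
  refine ⟨fun x hx => h1 _ (hg.1 _ (inv_mem_of h1 x hx)), ?_,
    fun k h3 h4 x hx => h2 k h3 h4 _ (hg.2.2.1 k h3 h4 _ (inv_mem_of (h2 k h3 h4) x hx)),
    fun k h3 h4 x hx => ?_⟩
  · rw [del_mul hab (inv_mem_of h1), del_mul hab hg.1, hg.2.1, mul_one,
      ← del_mul hab (inv_mem_of h1), mul_inv_cancel, del_one hab]
  · simpa using h2 k h3 h4.le _ (hg.2.2.2 k h3 h4 _ (inv_mem_of (h2 (k + 1) (by omega) h4) x hx))

lemma eq_one_of_Zs (hm : 3 ≤ fr.m) (hab : a ≠ b) (ha : a.val = 0) (hb : b.val = 1)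
    (h1 : fr.Mo 1 g) (h2 : g ∈ fr.Zs hab) (h3 : g (fr.w a) = fr.w a) : g = 1 := by
  have hle := fr.le
  have h4 : g (fr.w b) = fr.w b := by
    obtain ⟨t, -, e⟩ := h1.mon b (not_md (by omega))
    have := h2.2.1
    simp only [del, h3, e, Equiv.Perm.one_apply, c_self, c_smul, c_ne hab, one_mul, mul_one,
      zero_mul, sub_zero] at this
    simp [e, this]
  have h5 : ∀ j, ¬ Md fr.m j → g (fr.w j) = fr.w j → g (fr.w j.rev) = fr.w j.rev := fun j hj e => by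
    obtain ⟨t, -, e'⟩ := h1.mon _ (mt md_rev.1 hj)
    have := h1.mul_rev hj (e.trans (one_smul _ _).symm) e'
    rw [map_one, one_mul] at this
    simp [e', this]
  refine h1.eq_one_of_uni (uni_iff.2 fun j => ?_)
  by_cases h6 : j = a ∨ j = b ∨ j = a.rev ∨ j = b.rev
  · have : g (fr.w j) = fr.w j := by
      rcases h6 with rfl | rfl | rfl | rfl
      exacts [h3, h4, h5 a (not_md (by omega)) h3, h5 b (not_md (by omega)) h4]
    simp [this]
  · have := j.2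
    simp only [Fin.ext_iff, Fin.val_rev] at h6
    refine h2.2.2.2 _ ?_ ?_ _ (w_mem.2 (Nat.lt_succ_self _)) <;> unfold lv <;> split_ifs <;> omega

lemma normalClosure_U (hm : 2 ≤ fr.m) :
    normalClosure ((fr.U.subgroupOf (φ.EW ⊤) : Subgroup (φ.EW ⊤)) : Set (φ.EW ⊤)) = ⊤ := by
  refine eq_top_iff.2 fun ⟨g, hg⟩ _ => ?_
  obtain ⟨g', h1, rfl⟩ : g ∈ (normalClosure ((fr.U.subgroupOf (φ.EW ⊤) : Subgroup (φ.EW ⊤)) :
      Set (φ.EW ⊤))).map (φ.EW ⊤).subtype := by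
    refine EW_le (fun y y' l h _ _ => ?_) hg
    obtain ⟨g, hg, h1⟩ := rho_conj_U hm h
    exact ⟨_, normalClosure_normal.conj_mem ⟨_, h1.1⟩ (subset_normalClosure h1)
      ⟨g, sup_le_EW hm hg⟩, by simp [mul_assoc]⟩
  exact h1

/-- the stabiliser of a singular vector is generated by `p`-elements -/
theorem tor [Finite F] (hd : 11 ≤ d) {p : ℕ} (hp : p.Prime) [CharP F p] (ha : a.val = 0) {g : φ.EW ⊤}
    (hg : g.1 (fr.w a) = fr.w a) :
    g ∈ closure {h : φ.EW ⊤ | (∃ k : ℕ, h ^ p ^ k = 1) ∧ h.1 (fr.w a) = fr.w a} := by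
  have hm : 4 ≤ fr.m := by
    have := fr.d_le
    omega
  let ρ : Representation F (φ.EW ⊤) V :=
    LinearEquiv.automorphismGroup.toLinearMapMonoidHom.comp (φ.EW ⊤).subtype
  have ha' : ¬ Md fr.m a := not_md (by omega)
  have hU : ∀ u ∈ fr.U, u (fr.w a) = fr.w a := fun u hu => sub_eq_zero.1
    (eq_zero_of_Cs (uni_iff.1 hu.2 a) fun i => by rw [lv_of_not ha', ha]; omega)
  obtain ⟨x, hx, k, hk, rfl⟩ := tor_abs (sba (fr := fr) hd hp) (normalClosure_U (by omega))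
    (P := lineStab ρ (fr.w a))
    (H := closure {h : φ.EW ⊤ | (∃ k : ℕ, h ^ p ^ k = 1) ∧ h.1 (fr.w a) = fr.w a})
    (fun g hg => by
      obtain ⟨u, hu, t, ht, e⟩ := B_split hg
      obtain ⟨c, hc, e'⟩ := ht.2.mon a ha'
      refine ⟨Units.mk0 c hc, ?_⟩
      change (φ.EW ⊤).subtype g _ = _
      rw [e, LinearEquiv.mul_apply, e', map_smul, Equiv.Perm.one_apply, hU u hu, Units.val_mk0])
    (fun g hg x => conj_closure fun y hy => Subgroup.subset_closure (by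
      obtain ⟨k, hk⟩ := hy.1
      refine ⟨⟨k, by rw [conj_pow, hk]; simp⟩, ?_⟩
      obtain ⟨c, hc⟩ := inv_mem hg
      change g.1 (y.1 (ρ g⁻¹ _)) = _
      rw [hc, map_smul, hy.2, ← hc]
      exact app_inv _ _))
    (fun u hu => Subgroup.subset_closure ⟨by
      obtain ⟨k, hk⟩ := hu.2.isP hp
      exact ⟨k, Subtype.ext hk⟩, hU _ hu⟩) (g := g) ⟨1, hg.trans (one_smul _ _).symm⟩
  have hx' : x.1 (fr.w a) = fr.w a := by
    clear hg
    induction hx using closure_induction with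
    | mem y hy => exact hy.2
    | one => rfl
    | mul y z _ _ hy hz => simp [hy, hz]
    | inv y _ hy => exact inv_fix hy
  let b : Fin d := ⟨1, by omega⟩
  have hab : a ≠ b := fun e => by simp [e, b] at ha
  have h1 : k ∈ (fr.Zs hab).subgroupOf (φ.EW ⊤) := by
    refine (closure_le _).2 ?_ hk
    rintro t ⟨-, -, s, ⟨hs, hs'⟩, ht⟩
    refine Ms_le (H := (fr.Zs hab).subgroupOf (φ.EW ⊤))
      (fun u hu => U_le_Zs (by omega) hab ha rfl hu) (fun u hu => ?_) ht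
    obtain ⟨-, i, a', b', π, -, h2, h3, h4⟩ := mem_S (by omega) hs
    have h5 : π a ≠ a := fun e => by
      obtain ⟨c, hc, e'⟩ := h4.mon a ha'
      exact hs' ⟨Units.mk0 c hc, by rw [e] at e'; exact e'⟩
    have h6 := h3.val a
    have h7 := h2.lt
    have h8 := h2.le_rev
    have := a'.2
    rw [Ne, Fin.ext_iff] at h5
    rw [Fin.lt_def] at h7
    rw [Fin.le_def, Fin.val_rev] at h8
    obtain rfl : a' = a := Fin.ext (by omega)
    obtain rfl : b' = b := by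
      rcases h2 with h | h | h
      · exact Fin.ext (by simp only [b]; omega)
      · omega
      · omega
    exact conj_Zs (by omega) hab ha rfl h3 h4 (U_le_Zs (by omega) hab ha rfl hu)
  have h2 : k.1 = 1 := eq_one_of_Zs (by omega) hab ha rfl
    (mem_T (by omega) (T1_le hk).1 (T1_le hk).2).2 h1 (x.1.injective (hg.trans hx'.symm))
  rwa [show k = 1 from Subtype.ext h2, mul_one]

end Fr

end Vale.Agent.P183SB
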