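import Vale.Agent.P183SB.BN
import Vale.Agent.P183SB.Dick

/-!
P183: the torus is an abelian group of order prime to the characteristic; the split BN-pair.
-/

namespace Vale.Agent.P183SB

open Module Vale.Agent.P183CF Vale.Agent.P183CF.Form Vale.Agent.P183M Vale.Agent.P240.H195
  Vale.Agent.P183CR

variable {F V : Type*} [Field F] [AddCommGroup V] [Module F V] {φ : Form F V}

namespace Fr

variable {d : ℕ} {fr : Fr φ d} {x y z v : V} {g s t : V ≃ₗ[F] V}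

lemma q_ne (h : φ.Λ = ⊥) (hv : v ∈ fr.V0) (h0 : v ≠ 0) : φ.q v ≠ 0 :=
  fun e => h0 (fr.aniso v hv ((Q_zero_iff h).2 e))

lemma V0_nondeg (hx : x ∈ fr.V0) (h : ∀ y ∈ fr.V0, φ.b x y = 0) : x = 0 := by
  refine φ.nondeg x fun y => ?_
  rw [← fr.sum_c y, map_sum]
  refine Finset.sum_eq_zero fun a _ => ?_
  by_cases ha : Md fr.m a
  · exact h _ (Submodule.smul_mem _ _ (w_mem.2 ha))
  · rw [map_smul, φ.b_symm_zero ((b_w_eq_zero ha).2 (hx _ (mt md_rev.1 ha))), smul_zero]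

lemma Mo.mul_rev (h : fr.Mo 1 t) {a : Fin d} (ha : ¬ Md fr.m a) {c c' : F}
    (e : t (fr.w a) = c • fr.w a) (e' : t (fr.w a.rev) = c' • fr.w a.rev) : φ.σ c * c' = 1 := by
  have := Isom.b h.iso (fr.w a) (fr.w a.rev)
  rw [e, e', b_smul_left, map_smul, b_w ha, c_self, smul_eq_mul] at this
  exact mul_left_cancel₀ (J_ne ha) (by linear_combination this)

include fr in
lemma finrank_eq : finrank F V = d := by simpa using finrank_eq_card_basis fr.w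

variable [Finite F]

lemma bot_of_two (hx : x ∈ fr.V0) (hy : y ∈ fr.V0) (h0 : x ≠ 0) (h1 : y ∉ F ∙ x) : φ.Λ = ⊥ := by
  by_contra hΛ
  by_cases hσ : ∃ t, φ.σ t ≠ t
  · have h2 : ∀ z ∈ fr.V0, φ.b z z = 0 → z = 0 := fun z hz h =>
      fr.aniso z hz (φ.Q_eq_zero_of_ne hσ h)
    have h3 : φ.b x x ≠ 0 := fun e => h0 (h2 x hx e)
    set y' := y - (φ.b x y / φ.b x x) • x with hy'
    have h4 : y' ∈ fr.V0 := sub_mem hy (Submodule.smul_mem _ _ hx)
    have h5 : φ.b x y' = 0 := by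
      rw [hy', map_sub, map_smul, smul_eq_mul, div_mul_cancel₀ _ h3, sub_self]
    have h6 : φ.b y' y' ≠ 0 := fun e => h1 (by
      rw [sub_eq_zero.1 (h2 y' h4 e)]
      exact Submodule.smul_mem _ _ (Submodule.mem_span_singleton_self x))
    have h7 : ∀ z, φ.σ (φ.b z z) = φ.ε * φ.b z z := fun z => by
      conv_rhs => rw [φ.herm, ε_mul_ε']
    obtain ⟨c, hc⟩ := φ.exists_norm hσ (a := -φ.b y' y' / φ.b x x) (by
      rw [map_div₀, map_neg, h7, h7, ← mul_neg, mul_div_mul_left _ _ φ.ε_ne])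
    have h8 := h2 (y' + c • x) (add_mem h4 (Submodule.smul_mem _ _ hx)) (by
      simp only [map_add, LinearMap.add_apply, map_smul, b_smul_left, h5, φ.b_symm_zero h5,
        smul_eq_mul]
      rw [eq_div_iff h3] at hc
      linear_combination hc)
    refine h1 (Submodule.mem_span_singleton.2 ⟨φ.b x y / φ.b x x - c, ?_⟩)
    rw [sub_smul, eq_comm, ← sub_eq_zero, ← h8, hy']
    abel
  · push Not at hσ
    exact h0 (fr.aniso x hx (φ.md_eq_zero.2 (mem_Λ_of_eq hσ hΛ _)))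

lemma d_le' (hσ : ∃ t, φ.σ t ≠ t) : d ≤ 2 * fr.m + 1 := by
  by_contra h
  obtain ⟨t, ht⟩ := hσ
  refine ht (σ_of_bot (bot_of_two (fr := fr) (x := fr.w ⟨fr.m, by omega⟩)
    (y := fr.w ⟨fr.m + 1, by omega⟩) (w_mem.2 (md_iff.2 (by simp only; omega)))
    (w_mem.2 (md_iff.2 (by simp only; omega))) (fr.w.ne_zero _) fun h' => ?_) t)
  obtain ⟨c, hc⟩ := Submodule.mem_span_singleton.1 h'
  simpa [c_w] using congrArg (fun x => fr.c x ⟨fr.m + 1, by omega⟩) hc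

variable [FiniteDimensional F V]

lemma finrank_V0 : finrank F fr.V0 ≤ 2 := by
  by_contra h
  obtain ⟨x, hx, h0, hQ⟩ := φ.exists_sing fr.V0 (by omega)
  exact h0 (fr.aniso x hx hQ)

variable (fr) in
lemma d_le : d ≤ 2 * fr.m + 2 := by
  by_contra h
  let f : Fin 3 → Fin d := fun k => ⟨fr.m + k, by omega⟩
  have h1 : LinearIndependent F fun k : Fin 3 =>
      (⟨fr.w (f k), w_mem.2 (md_iff.2 (by simp only [f]; omega))⟩ : fr.V0) :=
    LinearIndependent.of_comp fr.V0.subtype (fr.w.linearIndependent.comp f fun a b e =>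
      Fin.ext (by simpa [f] using e))
  have := h1.fintype_card_le_finrank.trans finrank_V0
  simp at this

lemma span_two (hx : x ∈ fr.V0) (hy : y ∈ fr.V0) (h0 : x ≠ 0) (h1 : y ∉ F ∙ x) (hz : z ∈ fr.V0) :
    ∃ a b : F, z = a • x + b • y := by
  have h2 : (F ∙ x) < (F ∙ x) ⊔ F ∙ y := left_lt_sup.2 fun h => h1 (h (Submodule.mem_span_singleton_self y))
  have h3 := Submodule.finrank_lt_finrank_of_lt h2
  rw [finrank_span_singleton h0] at h3
  have h4 := Submodule.eq_of_le_of_finrank_le (sup_span_le (span1_le hx) hy)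
    (finrank_V0.trans h3)
  rw [← h4, mem_sup_span] at hz
  obtain ⟨_, h5, b, rfl⟩ := hz
  obtain ⟨a, rfl⟩ := Submodule.mem_span_singleton.1 h5
  exact ⟨a, b, rfl⟩

/-- an isometry of the anisotropic part with a fixed vector is trivial or a reflection -/
lemma exists_rfl (hg : g ∈ φ.Isom) (hg' : ∀ z ∈ fr.V0, g z ∈ fr.V0) (hx : x ∈ fr.V0) (h0 : x ≠ 0)
    (h1 : g x = x) (hy : y ∈ fr.V0) (h2 : g y ≠ y) : ∃ (h : φ.Λ = ⊥) (v : V) (hv : φ.q v ≠ 0),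
      v ∈ fr.V0 ∧ φ.b v x = 0 ∧ ∀ z ∈ fr.V0, g z = rfl' h hv z := by
  have h3 : y ∉ F ∙ x := fun h => by
    obtain ⟨c, rfl⟩ := Submodule.mem_span_singleton.1 h
    exact h2 (by rw [map_smul, h1])
  have h := bot_of_two hx hy h0 h3
  have h4 : g y - y ∈ fr.V0 := sub_mem (hg' y hy) hy
  have h5 : φ.b (g y - y) x = 0 := by
    rw [map_sub, LinearMap.sub_apply, ← Isom.b hg y x, h1, sub_self]
  refine ⟨h, _, q_ne h h4 (sub_ne_zero.2 h2), h4, h5, fun z hz => ?_⟩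
  obtain ⟨a, b, rfl⟩ := span_two hx hy h0 h3 hz
  simp only [map_add, map_smul]
  rw [h1, rfl'_fix h _ h5, rfl'_move h (Isom.Q hg y).symm]

omit [Finite F] [FiniteDimensional F V] in
lemma rfl'_mem (h : φ.Λ = ⊥) (hv : φ.q v ≠ 0) (hv' : v ∈ fr.V0) (hz : z ∈ fr.V0) :
    rfl' h hv z ∈ fr.V0 := by
  rw [rfl'_apply]
  exact sub_mem hz (Submodule.smul_mem _ _ hv')

/-- no element of the torus acts on the anisotropic part as a reflection -/
lemma not_rfl (hd : 11 ≤ d) (ht : t ∈ fr.T) (h : φ.Λ = ⊥) (hv : φ.q v ≠ 0) (hv' : v ∈ fr.V0) :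
    ¬ ∀ z ∈ fr.V0, t z = rfl' h hv z := by
  intro h1
  have h2 : fr.Mo 1 (rfl' h hv) := ⟨rfl'_isom h hv, sg_one, fun a ha => ⟨1, one_ne_zero, by
    rw [rfl'_fix h hv (φ.b_symm_zero ((b_w_eq_zero ha).2 (hv' _ (mt md_rev.1 ha))))]
    simp⟩⟩
  have h3 : fr.Mo 1 (rfl' h hv * t) := by simpa using h2.mul ht.2
  have h4 : ∀ a, ∃ c : F, (rfl' h hv * t) (fr.w a) = c • fr.w a ∧ (Md fr.m a → c = 1) := fun a => by
    by_cases ha : Md fr.m a
    · exact ⟨1, by rw [LinearEquiv.mul_apply, h1 _ (w_mem.2 ha), rfl'_rfl', one_smul], fun _ => rfl⟩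
    · obtain ⟨c, -, e⟩ := h3.mon a ha
      exact ⟨c, e, fun h' => absurd h' ha⟩
  choose c hc hc' using h4
  refine no_rfl h hv (by rwa [fr.finrank_eq]) fr.w h3.iso hc (Finset.prod_involution
    (fun a _ => a.rev) (fun a _ => ?_) (fun a _ h5 => (ne_rev fun ha => h5 (hc' a ha)).symm)
    (fun _ _ => Finset.mem_univ _) fun a _ => Fin.rev_rev a) ?_
  · by_cases ha : Md fr.m a
    · rw [hc' a ha, hc' _ (md_rev.2 ha), one_mul]
    · rw [← h3.mul_rev ha (hc a) (hc _), σ_of_bot h]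
  · have : rfl' h hv * (rfl' h hv * t) = t := LinearEquiv.ext fun x => rfl'_rfl' h hv _
    rw [this]
    exact ht.1

lemma T_fix (hd : 11 ≤ d) (ht : t ∈ fr.T) (hx : x ∈ fr.V0) (h0 : x ≠ 0) (h1 : t x = x)
    (hy : y ∈ fr.V0) : t y = y := by
  by_contra h2
  obtain ⟨h, v, hv, hv', -, h3⟩ := exists_rfl ht.2.iso (fun z => ht.2.map_V0) hx h0 h1 hy h2
  exact not_rfl hd ht h hv hv' h3

lemma T_inv (hd : 11 ≤ d) (ht : t ∈ fr.T) (hx : x ∈ fr.V0) (h0 : x ≠ 0) (h : φ.Λ = ⊥)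
    (hv : φ.q v ≠ 0) (hv' : v ∈ fr.V0) (hvx : φ.b v x = 0)
    (hz : z ∈ fr.V0) : t (rfl' h hv (t z)) = rfl' h hv z := by
  by_cases h1 : t x = x
  · rw [T_fix hd ht hx h0 h1 hz, T_fix hd ht hx h0 h1 (rfl'_mem h hv hv' hz)]
  have h2 : t x - x ∈ fr.V0 := sub_mem (ht.2.map_V0 hx) hx
  have h3 := q_ne h h2 (sub_ne_zero.2 h1)
  have h4 : (rfl' h h3 * t) x = x :=
    (congrArg (rfl' h h3) (rfl'_move h (Isom.Q ht.2.iso x).symm h3)).symm.trans (rfl'_rfl' h h3 x)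
  by_cases h5 : ∀ z ∈ fr.V0, (rfl' h h3 * t) z = z
  · refine absurd (fun z hz => ?_) (not_rfl hd ht h h3 h2)
    rw [← rfl'_rfl' h h3 (t z)]
    exact congrArg _ (h5 z hz)
  push Not at h5
  obtain ⟨y', hy', h5⟩ := h5
  obtain ⟨_, v', hv1, hv2, hv3, h6⟩ := exists_rfl (mul_mem (rfl'_isom h h3) ht.2.iso)
    (fun z hz => rfl'_mem h h3 h2 (ht.2.map_V0 hz)) hx h0 h4 hy' h5
  have hv0 : v ≠ 0 := fun e => hv (by rw [e, ← Q_zero_iff h, Q_zero])
  obtain ⟨c, rfl⟩ : ∃ c : F, c • v = v' := by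
    refine Submodule.mem_span_singleton.1 (by_contra fun h7 => h0 (V0_nondeg hx fun z hz => ?_))
    obtain ⟨a, b, rfl⟩ := span_two hv' hv2 hv0 h7 hz
    simp [φ.b_symm_zero hvx, φ.b_symm_zero hv3]
  rw [rfl'_smul h hv] at h6
  have h7 : ∀ z ∈ fr.V0, t z = rfl' h h3 (rfl' h hv z) := fun z hz => by
    rw [← h6 z hz, LinearEquiv.mul_apply, rfl'_rfl']
  rw [h7 _ (rfl'_mem h hv hv' (ht.2.map_V0 hz)), rfl'_rfl', h7 z hz, rfl'_rfl']

/-- the torus is abelian -/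
theorem T_comm (hd : 11 ≤ d) (hs : s ∈ fr.T) (ht : t ∈ fr.T) : s * t = t * s := by
  refine fr.w.ext' fun a => ?_
  have key : ∀ c c' : F, s (fr.w a) = c • fr.w a → t (fr.w a) = c' • fr.w a →
      (s * t) (fr.w a) = (t * s) (fr.w a) := fun c c' e e' => by
    simp [e, e', smul_smul, mul_comm]
  by_cases ha : Md fr.m a
  swap
  · obtain ⟨c, -, e⟩ := hs.2.mon a ha
    obtain ⟨c', -, e'⟩ := ht.2.mon a ha
    exact key c c' e e'
  have hx : fr.w a ∈ fr.V0 := w_mem.2 ha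
  by_cases h1 : ∀ y ∈ fr.V0, y ∈ F ∙ fr.w a
  · obtain ⟨c, e⟩ := Submodule.mem_span_singleton.1 (h1 _ (hs.2.map_V0 hx))
    obtain ⟨c', e'⟩ := Submodule.mem_span_singleton.1 (h1 _ (ht.2.map_V0 hx))
    exact key c c' e.symm e'.symm
  push Not at h1
  obtain ⟨y, hy, h1⟩ := h1
  have h0 := fr.w.ne_zero a
  have h := bot_of_two hx hy h0 h1
  generalize fr.w a = x at *
  obtain ⟨v, hv', hv0, hvx⟩ : ∃ v ∈ fr.V0, v ≠ 0 ∧ φ.b v x = 0 := by
    by_cases h2 : φ.b x x = 0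
    · exact ⟨x, hx, h0, h2⟩
    · refine ⟨y - (φ.b x y / φ.b x x) • x, sub_mem hy (Submodule.smul_mem _ _ hx), fun e => h1 ?_,
        φ.b_symm_zero ?_⟩
      · rw [sub_eq_zero.1 e]
        exact Submodule.smul_mem _ _ (Submodule.mem_span_singleton_self x)
      · rw [map_sub, map_smul, smul_eq_mul, div_mul_cancel₀ _ h2, sub_self]
  have hv := q_ne h hv' hv0
  have H := fun t (ht : t ∈ fr.T) z (hz : z ∈ fr.V0) => T_inv hd ht hx h0 h hv hv' hvx hz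
  have h2 : (s * t)⁻¹ (rfl' h hv x) ∈ fr.V0 :=
    (inv_mem (mul_mem hs ht)).2.map_V0 (rfl'_mem h hv hv' hx)
  have h3 : x = rfl' h hv ((s * t) ((s * t)⁻¹ (rfl' h hv x))) := by rw [app_inv, rfl'_rfl']
  generalize (s * t)⁻¹ (rfl' h hv x) = z at h2 h3
  rw [h3, H _ (mul_mem hs ht) z h2]
  simp only [LinearEquiv.mul_apply]
  rw [H s hs _ (ht.2.map_V0 h2), H t ht z h2]

instance : Finite (V ≃ₗ[F] V) :=
  have : Finite V := Module.finite_of_finite F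
  Finite.of_injective (fun g : V ≃ₗ[F] V => (g : V → V)) DFunLike.coe_injective

/-- the torus has order prime to `p` -/
theorem T_coprime (hd : 11 ≤ d) {p : ℕ} (hp : p.Prime) [CharP F p] : ¬ p ∣ Nat.card fr.T := by
  intro h
  have : Fact p.Prime := ⟨hp⟩
  obtain ⟨⟨t, ht⟩, h1⟩ := exists_prime_orderOf_dvd_card' p h
  rw [Subgroup.orderOf_mk] at h1
  have h2 : t ^ p ^ 1 = 1 := by rw [pow_one, ← h1, pow_orderOf_eq_one]
  let ρ : Representation F (V ≃ₗ[F] V) V := LinearEquiv.automorphismGroup.toLinearMapMonoidHom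
  obtain rfl : t = 1 := by
    refine fr.w.ext' fun a => ?_
    by_cases ha : Md fr.m a
    · obtain ⟨x, hx, h0, h3⟩ := exists_fixed (ρ := ρ) hp (H := Subgroup.zpowers t)
        (IsPGroup.of_card (n := 1) (by rw [Nat.card_zpowers, h1, pow_one])) (W := fr.V0)
        (fun g hg z hz => (Subgroup.zpowers_le.2 ht hg).2.map_V0 hz)
        (fun e => fr.w.ne_zero a (by simpa [e] using (w_mem.2 ha : fr.w a ∈ fr.V0)))
      exact T_fix hd ht hx h0 (h3 t (Subgroup.mem_zpowers t)) (w_mem.2 ha)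
    · obtain ⟨c, hc, e⟩ := ht.2.mon a ha
      exact fix_of_pow (ρ := ρ) hp h2 ⟨Units.mk0 c hc, e⟩
  rw [orderOf_one] at h1
  exact hp.ne_one h1.symm

omit [FiniteDimensional F V] in
lemma two_le (hd : 11 ≤ d) : 2 ≤ fr.m := by
  have := Module.Finite.of_basis fr.w
  have := fr.d_le
  omega

omit [Finite F] in
lemma U_pgroup {p : ℕ} (hp : p.Prime) [CharP F p] : IsPGroup p fr.U := fun u => by
  obtain ⟨k, hk⟩ := u.2.2.isP hp
  exact ⟨k, Subtype.ext hk⟩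

/-- **The split BN-pair.** -/
theorem sba (hd : 11 ≤ d) {p : ℕ} (hp : p.Prime) [CharP F p] :
    SBA p (fr.B.subgroupOf (φ.EW ⊤)) (fr.N.subgroupOf (φ.EW ⊤)) (fr.U.subgroupOf (φ.EW ⊤))
      {s : φ.EW ⊤ | s.1 ∈ fr.S} := by
  have hm := two_le (fr := fr) hd
  refine ⟨⟨?_, hp⟩, fun x hx hx' y hy hy' =>
    Subtype.ext (T_comm hd (mem_T hm hx hx') (mem_T hm hy hy'))⟩
  rw [← gen hm]
  refine Vale.Agent.P240.R2.H727.O.sb_gen (bn0 hm) U_le_B (U_pgroup hp)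
    (fun b hb u hu => ⟨mul_mem (mul_mem hb.1 hu.1) (inv_mem hb.1), hu.2.conj hb.2⟩)
    (fun g hg => ?_) (B_inf_N hm ▸ T_coprime hd hp) (fun s hs x hx h1 u hu => ?_) ?_
    ⟨_, 0, by omega, rfl⟩
  · obtain ⟨u, hu, t, ht, e⟩ := B_split hg
    exact ⟨u, hu, t, T_le_B ht, T_le_N ht, e⟩
  · obtain ⟨h2, i, a, b, π, -, h3, h4, h5⟩ := mem_S hm hs
    exact (mem_U_iff h2 h5 (mul_mem (mul_mem hu.1 hx.1) (inv_mem hu.1))).2
      (h3.strong h4 hx ((mem_U_iff h2 h5 hx.1).1 h1) hu)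
  · obtain ⟨n, hn, π, h1, h2⟩ := exists_n0 hm
    exact ⟨n, hn, fun x hx h3 => eq_one_of_opp h1.sg h2 (EW_le_Isom _ hx.1) hx.2
      (h1.uni_conj_iff.1 h3.2)⟩

end Fr

end Vale.Agent.P183SB
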