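import Vale.Agent.P183SB.Rt

/-!
P183: the subgroups `B`, `U`, `T`, `N` attached to a Witt basis, and the Weyl group.
-/

namespace Vale.Agent.P183SB

open Module Vale.Agent.P183CF Vale.Agent.P183CF.Form Vale.Agent.P183M

variable {F V : Type*} [Field F] [AddCommGroup V] [Module F V] {φ : Form F V}

namespace Fr

variable {d : ℕ} (fr : Fr φ d)

/-- type `D` -/
def dty : Prop := d = 2 * fr.m ∧ φ.Λ = ⊥

/-- `a, b` is the root of the node `i` -/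
def Nd (i : ℕ) (a b : Fin d) : Prop :=
  (a.val = i ∧ b.val = i + 1 ∧ b.val < fr.m) ∨
    (¬ fr.dty ∧ i + 1 = fr.m ∧ a.val = i ∧ b = a.rev) ∨
      (fr.dty ∧ i + 1 = fr.m ∧ a.val + 2 = fr.m ∧ b.val = fr.m)

/-- indices that can be flipped without moving the other such indices -/
def Gd (a : Fin d) : Prop := a.val < fr.m ∧ (fr.dty → a.val + 1 < fr.m)

/-- the torus -/
def T : Subgroup (V ≃ₗ[F] V) where
  carrier := {g | g ∈ φ.EW ⊤ ∧ fr.Mo 1 g}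
  one_mem' := ⟨one_mem _, mo_one⟩
  mul_mem' := fun ha hb => ⟨mul_mem ha.1 hb.1, by simpa using ha.2.mul hb.2⟩
  inv_mem' := fun ha => ⟨inv_mem ha.1, by simpa using ha.2.inv⟩

/-- the monomial group -/
def Mn : Subgroup (V ≃ₗ[F] V) where
  carrier := {g | g ∈ φ.EW ⊤ ∧ ∃ π, fr.Mo π g}
  one_mem' := ⟨one_mem _, 1, mo_one⟩
  mul_mem' := fun ⟨h1, _, h2⟩ ⟨h3, _, h4⟩ => ⟨mul_mem h1 h3, _, h2.mul h4⟩
  inv_mem' := fun ⟨h1, _, h2⟩ => ⟨inv_mem h1, _, h2.inv⟩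

/-- representatives of the simple reflections -/
noncomputable def nd (i : ℕ) : V ≃ₗ[F] V :=
  Classical.epsilon fun s => s ∈ φ.EW ⊤ ∧ ∀ a b π, fr.Nd i a b → fr.Pm a b π → fr.Mo π s

/-- the set of simple reflections -/
def S : Set (V ≃ₗ[F] V) := {s | ∃ i < fr.m, s = fr.nd i}

/-- the group `N` -/
def N : Subgroup (V ≃ₗ[F] V) := Subgroup.closure fr.S ⊔ fr.T

/-- the reflection of the root `a, b` lies in the Weyl group -/
def Wp (a b : Fin d) : Prop := ∃ n ∈ fr.N, ∃ π, fr.Pm a b π ∧ fr.Mo π n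

section
variable [FiniteDimensional F V]

/-- the Borel subgroup -/
def B : Subgroup (V ≃ₗ[F] V) where
  carrier := {g | g ∈ φ.EW ⊤ ∧ fr.Tri fr.lv g}
  one_mem' := ⟨one_mem _, tri_one⟩
  mul_mem' := fun ha hb => ⟨mul_mem ha.1 hb.1, ha.2.mul hb.2⟩
  inv_mem' := fun ha => ⟨inv_mem ha.1, ha.2.inv⟩

/-- the unipotent radical of the Borel subgroup -/
def U : Subgroup (V ≃ₗ[F] V) where
  carrier := {g | g ∈ φ.EW ⊤ ∧ fr.Uni fr.lv g}
  one_mem' := ⟨one_mem _, uni_one⟩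
  mul_mem' := fun ha hb => ⟨mul_mem ha.1 hb.1, ha.2.mul hb.2⟩
  inv_mem' := fun ha => ⟨inv_mem ha.1, ha.2.inv⟩

end

variable {fr} {i : ℕ} {a b c : Fin d} {π π' : Equiv.Perm (Fin d)} {x n : V ≃ₗ[F] V}

lemma not_md (h : a.val < fr.m) : ¬ Md fr.m a := fun h' => absurd h'.1 (not_le.2 h)

lemma not_md' (h : a.val < fr.m) : ¬ Md fr.m a.rev := mt md_rev.1 (not_md h)

lemma not_md_iff : ¬ Md fr.m a ↔ a.val < fr.m ∨ a.rev.val < fr.m := by
  unfold Md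
  omega

lemma ne_rev_of_lt (ha : a.val < fr.m) (hb : b.val < fr.m) : a ≠ b.rev := by
  intro e
  have := fr.le
  rw [e, Fin.val_rev] at ha
  omega

lemma lv_lt_iff {k : ℕ} (hk : k ≤ fr.m) : fr.lv a < k ↔ a.val < k := by
  unfold lv
  split_ifs with h
  · have := h.1
    omega
  · rfl

lemma Nd.lt (h : fr.Nd i a b) : a < b := by
  have := fr.le
  rw [Fin.lt_def]
  rcases h with h | ⟨-, h1, h2, rfl⟩ | h
  · omega
  · rw [Fin.val_rev]
    omega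
  · omega

lemma Nd.lt_m (h : fr.Nd i a b) : a.val < fr.m := by
  rcases h with h | h | h <;> omega

lemma Nd.ro (h : fr.Nd i a b) : fr.Ro a b := by
  refine ⟨not_md h.lt_m, ?_, h.lt.ne⟩
  rcases h with h | ⟨-, h1, h2, rfl⟩ | ⟨h, h'⟩
  · exact not_md h.2.2
  · exact not_md' (by omega)
  · have := h.1
    rw [md_iff]
    omega

lemma Nd.le_rev (h : fr.Nd i a b) : b ≤ a.rev := by
  have := fr.le
  rw [Fin.le_def, Fin.val_rev]
  rcases h with h | ⟨-, h1, h2, rfl⟩ | ⟨h, h'⟩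
  · omega
  · rw [Fin.val_rev]
  · have := h.1
    omega

lemma Nd.not_dty (h : fr.Nd i a b) (hb : b = a.rev) : ¬ fr.dty := by
  rcases h with h | h | ⟨h, h'⟩
  · exact absurd hb (ne_rev_of_lt h.2.2 (by omega))
  · exact h.1
  · have := h.1
    rw [hb, Fin.val_rev] at h'
    omega

lemma Nd.unique {a' b' : Fin d} (h : fr.Nd i a b) (h' : fr.Nd i a' b') : a = a' ∧ b = b' := by
  rcases h with h | ⟨h0, h1, h2, rfl⟩ | h <;> rcases h' with h' | ⟨h0', h1', h2', rfl⟩ | h'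
  · exact ⟨Fin.ext (by omega), Fin.ext (by omega)⟩
  · omega
  · omega
  · omega
  · obtain rfl : a = a' := Fin.ext (by omega)
    exact ⟨rfl, rfl⟩
  · exact absurd h'.1 h0
  · omega
  · exact absurd h.1 h0'
  · exact ⟨Fin.ext (by omega), Fin.ext (by omega)⟩

lemma exists_Nd (hm : 2 ≤ fr.m) (hi : i < fr.m) : ∃ a b, fr.Nd i a b := by
  have := fr.le
  by_cases h : i + 1 < fr.m
  · exact ⟨⟨i, by omega⟩, ⟨i + 1, by omega⟩, Or.inl ⟨rfl, rfl, h⟩⟩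
  by_cases h' : fr.dty
  · exact ⟨⟨fr.m - 2, by omega⟩, ⟨fr.m, by omega⟩,
      Or.inr (Or.inr ⟨h', by omega, by simp only; omega, rfl⟩)⟩
  · exact ⟨⟨i, by omega⟩, _, Or.inr (Or.inl ⟨h', by omega, rfl, rfl⟩)⟩

lemma Nd.i_lt (h : fr.Nd i a b) : i < fr.m := by
  rcases h with h | h | h <;> omega

lemma rt_val (h : fr.Ro a b) (hb : b ≠ a.rev) (t : F) :
    ∃ x ∈ fr.Rt a b, x (fr.w b) = fr.w b + t • fr.w a := by
  refine rt_exists h ?_ (by simpa using Submodule.smul_mem _ _ (w_mem.2 (Or.inl rfl)))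
  rw [Q_add, fr.sing b h.r, φ.Q_smul_zero (fr.sing a h.l), map_smul,
    b_ww h.r (mt eq_rev_comm.2 hb)]
  simp

lemma rt_ne (h : fr.Ro a b) (hb : b = a.rev → ¬ fr.dty) : ∃ x ∈ fr.Rt a b, x ≠ 1 := by
  by_cases hb' : b = a.rev
  · have key : ∀ v l (h1 : φ.RD (fr.w a) v l), v ∈ fr.V0 → rho h1 = 1 → v = 0 ∧ l = 0 := by
      intro v l h1 hv e
      have h2 : φ.b v (fr.w b) = 0 := φ.b_symm_zero ((b_w_eq_zero h.r).2 (hv _ h.rev.r))
      have h3 : φ.b (fr.w a) (fr.w b) = fr.J a := by rw [hb', J]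
      have h4 := congrArg (fun g : V ≃ₗ[F] V => fr.c (g (fr.w b)) a) e
      simp [rho_apply, c_ne h.ne.symm, hv a h.l, h2, h3, φ.ε_ne, J_ne h.l] at h4
      exact ⟨fr.aniso v hv (by rw [h1.val, h4, map_zero]), h4⟩
    have mem : ∀ v l (h1 : φ.RD (fr.w a) v l), v ∈ fr.V0 → rho h1 ∈ fr.Rt a b := fun v l h1 hv _ =>
      ⟨v, l, h1, rfl, Cs_mono (fun _ hi => Or.inl ⟨hb', hi⟩) hv, fun h => absurd hb' h⟩
    by_cases hΛ : φ.Λ = ⊥
    · have hd : 2 * fr.m < d := lt_of_le_of_ne fr.le fun e => hb hb' ⟨e.symm, hΛ⟩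
      have hm : Md fr.m (⟨fr.m, by omega⟩ : Fin d) := md_iff.2 ⟨le_rfl, by simp only; omega⟩
      have h1 : φ.RD (fr.w a) (fr.w ⟨fr.m, by omega⟩) (φ.q _) :=
        ⟨fr.sing a h.l, b_ww h.l fun e => h.l (md_rev.1 (e ▸ hm)), rfl⟩
      exact ⟨_, mem _ _ h1 (w_mem.2 hm), fun e => fr.w.ne_zero _ (key _ _ h1 (w_mem.2 hm) e).1⟩
    · obtain ⟨⟨l, hl⟩, hl0⟩ := AddSubgroup.ne_bot_iff_exists_ne_zero.1 hΛ
      have h1 : φ.RD (fr.w a) 0 l :=
        ⟨fr.sing a h.l, map_zero _, by rw [Q_zero, eq_comm, md_eq_zero]; exact hl⟩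
      exact ⟨_, mem _ _ h1 (zero_mem _), fun e => hl0 (Subtype.ext (key _ _ h1 (zero_mem _) e).2)⟩
  · obtain ⟨x, hx, e⟩ := rt_val h hb' 1
    refine ⟨x, hx, fun e' => fr.w.ne_zero a ?_⟩
    simpa [e'] using e

lemma exists_mo (h : fr.Ro a b) (hb : b = a.rev → ¬ fr.dty) (hπ : fr.Pm a b π) :
    ∃ s ∈ φ.EW ⊤, fr.Mo π s := by
  obtain ⟨x, hx, h1⟩ := rt_ne h hb
  obtain ⟨y', hy', y, hy, π', hπ', h2, -⟩ := rt_one h hx h1
  exact ⟨_, mul_mem (mul_mem (rt_EW h.symm hy') (rt_EW h hx)) (rt_EW h.symm hy), hπ'.unique hπ ▸ h2⟩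

lemma nd_spec (i : ℕ) : fr.nd i ∈ φ.EW ⊤ ∧ ∀ a b π, fr.Nd i a b → fr.Pm a b π → fr.Mo π (fr.nd i) := by
  refine Classical.epsilon_spec
    (p := fun s => s ∈ φ.EW ⊤ ∧ ∀ a b π, fr.Nd i a b → fr.Pm a b π → fr.Mo π s) ?_
  by_cases h : ∃ a b, fr.Nd i a b
  · obtain ⟨a, b, h⟩ := h
    obtain ⟨π, hπ⟩ := h.ro.exists_pm
    obtain ⟨s, hs, h1⟩ := exists_mo h.ro h.not_dty hπ
    refine ⟨s, hs, fun a' b' π' h' hπ' => ?_⟩
    obtain ⟨rfl, rfl⟩ := h.unique h'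
    exact hπ.unique hπ' ▸ h1
  · exact ⟨1, one_mem _, fun a b _ h' => absurd ⟨a, b, h'⟩ h⟩

lemma Nd.mo (h : fr.Nd i a b) (hπ : fr.Pm a b π) : fr.Mo π (fr.nd i) := (nd_spec i).2 a b π h hπ

lemma mem_S (hm : 2 ≤ fr.m) {s : V ≃ₗ[F] V} (hs : s ∈ fr.S) :
    s ∈ φ.EW ⊤ ∧ ∃ i a b π, s = fr.nd i ∧ fr.Nd i a b ∧ fr.Pm a b π ∧ fr.Mo π s := by
  obtain ⟨i, hi, rfl⟩ := hs
  obtain ⟨a, b, h⟩ := exists_Nd hm hi
  obtain ⟨π, hπ⟩ := h.ro.exists_pm
  exact ⟨(nd_spec i).1, i, a, b, π, rfl, h, hπ, h.mo hπ⟩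

lemma S_sub_N {s : V ≃ₗ[F] V} (hs : s ∈ fr.S) : s ∈ fr.N :=
  Subgroup.mem_sup_left (Subgroup.subset_closure hs)

lemma T_le_N : fr.T ≤ fr.N := le_sup_right

lemma N_le_Mn (hm : 2 ≤ fr.m) : fr.N ≤ fr.Mn := by
  refine sup_le ((Subgroup.closure_le _).2 fun s hs => ?_) fun t ht => ⟨ht.1, 1, ht.2⟩
  obtain ⟨h, -, -, -, π, -, -, -, h'⟩ := mem_S hm hs
  exact ⟨h, π, h'⟩

lemma Nd.wp (h : fr.Nd i a b) : fr.Wp a b := by
  obtain ⟨π, hπ⟩ := h.ro.exists_pm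
  exact ⟨_, S_sub_N ⟨i, h.i_lt, rfl⟩, π, hπ, h.mo hπ⟩

lemma Wp.symm (h : fr.Wp a b) : fr.Wp b a := by
  obtain ⟨n, hn, π, h1, h2⟩ := h
  exact ⟨n, hn, π, h1.symm, h2⟩

lemma Wp.rev (h : fr.Wp a b) : fr.Wp a.rev b.rev := by
  obtain ⟨n, hn, π, h1, h2⟩ := h
  exact ⟨n, hn, π, h1.rev, h2⟩

lemma Wp.conj (h : fr.Wp a b) (hn : n ∈ fr.N) (hπ : fr.Mo π n) : fr.Wp (π a) (π b) := by
  obtain ⟨n', hn', π', h1, h2⟩ := h
  exact ⟨_, mul_mem (mul_mem hn hn') (inv_mem hn), _, h1.conj hπ.sg, (hπ.mul h2).mul hπ.inv⟩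

lemma Wp.move (h : fr.Wp a b) (h' : fr.Wp b c) (h1 : a ≠ b) (h2 : a ≠ c) (h3 : a ≠ b.rev)
    (h4 : a ≠ c.rev) : fr.Wp a c := by
  obtain ⟨n, hn, π, h5, h6⟩ := h'
  have := h.conj hn h6
  rwa [h5.l, h5.o a h1 h2 h3 h4] at this

lemma wp_lt (hb : b.val < fr.m) (hab : a < b) : fr.Wp a b := by
  obtain ⟨b, hb'⟩ := b
  induction b with
  | zero => exact absurd hab (Nat.not_lt_zero _)
  | succ b ih =>
    rw [Fin.lt_def] at hab
    simp only at hab hb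
    by_cases h : a.val = b
    · exact Nd.wp (i := b) (Or.inl ⟨h, rfl, hb⟩)
    · have h1 : a < ⟨b, by omega⟩ := by rw [Fin.lt_def]; simp only; omega
      exact (ih (by omega) (by simp only; omega) h1).move (Nd.wp (i := b) (Or.inl ⟨rfl, rfl, hb⟩))
        h1.ne (Fin.ne_of_lt hab) (ne_rev_of_lt (fr := fr) (by omega) (by simp only; omega))
        (ne_rev_of_lt (fr := fr) (by omega) hb)

lemma wp_low (ha : a.val < fr.m) (hb : b.val < fr.m) (hab : a ≠ b) : fr.Wp a b := by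
  rcases lt_or_gt_of_ne hab with h | h
  exacts [wp_lt hb h, (wp_lt ha h).symm]

lemma wp_rev (hm : 2 ≤ fr.m) (ha : a.val < fr.m) (hb : b.val < fr.m) (hab : a = b → ¬ fr.dty) :
    fr.Wp a b.rev := by
  have hle := fr.le
  let L : Fin d := ⟨fr.m - 1, by omega⟩
  have hL : L.val < fr.m := by simp only [L]; omega
  by_cases hd : fr.dty
  · have key : ∀ {a : Fin d}, a.val < fr.m → a ≠ L → fr.Wp a L.rev := by
      intro a ha haL
      let K : Fin d := ⟨fr.m - 2, by omega⟩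
      have hK : K.val < fr.m := by simp only [K]; omega
      have h1 : fr.Wp K L.rev := Nd.wp (i := fr.m - 1) (Or.inr (Or.inr ⟨hd, by omega,
        by simp only [K]; omega, by have := hd.1; simp only [L, Fin.val_rev]; omega⟩))
      by_cases h2 : a = K
      · rwa [h2]
      · exact (h1.symm.move (wp_low hK ha (Ne.symm h2)) (ne_rev_of_lt hK hL).symm
          (ne_rev_of_lt ha hL).symm (Fin.rev_injective.ne fun e => by
            have := congrArg Fin.val e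
            simp only [K, L] at this
            omega) (Fin.rev_injective.ne haL.symm)).symm
    have hab' : a ≠ b := fun e => hab e hd
    by_cases h1 : b = L
    · exact h1 ▸ key ha (h1 ▸ hab')
    by_cases h2 : a = L
    · simpa [h2] using (key hb h1).rev.symm
    · exact (key ha h2).move (wp_low hL hb (Ne.symm h1)).rev (ne_rev_of_lt ha hL)
        (ne_rev_of_lt ha hb) (by rwa [Fin.rev_rev]) (by rwa [Fin.rev_rev])
  · have h1 : fr.Wp L L.rev :=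
      Nd.wp (i := fr.m - 1) (Or.inr (Or.inl ⟨hd, by omega, rfl, rfl⟩))
    have h2 : fr.Wp b b.rev := by
      by_cases h3 : L = b
      · exact h3 ▸ h1
      · obtain ⟨n, hn, π, h4, h5⟩ := wp_low hL hb h3
        have := h1.conj hn h5
        rwa [h4.l, h4.rev.l] at this
    by_cases h3 : a = b
    · rwa [h3]
    · exact (wp_low ha hb h3).move h2 h3 (ne_rev_of_lt ha hb) (ne_rev_of_lt ha hb)
        (by rwa [Fin.rev_rev])

/-- all reflections lie in the Weyl group -/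
theorem wp_all (hm : 2 ≤ fr.m) (h : fr.Ro a b) (hb : b = a.rev → ¬ fr.dty) : fr.Wp a b := by
  rcases not_md_iff.1 h.l with h1 | h1 <;> rcases not_md_iff.1 h.r with h2 | h2
  · exact wp_low h1 h2 h.ne
  · simpa using wp_rev hm h1 h2 fun e => hb (eq_rev_comm.2 e)
  · simpa using (wp_rev hm h2 h1 hb).symm
  · simpa using (wp_low h1 h2 h.rev.ne).rev

lemma Gd.mono (h : fr.Gd a) (hb : b ≤ a) : fr.Gd b :=
  ⟨lt_of_le_of_lt hb h.1, fun h' => lt_of_le_of_lt (Nat.succ_le_succ hb) (h.2 h')⟩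

lemma exists_flip (hm : 2 ≤ fr.m) (ha : fr.Gd a) : ∃ n ∈ fr.N, ∃ π, fr.Mo π n ∧ π a = a.rev ∧
    ∀ k, fr.Gd k → k ≠ a → π k = k := by
  by_cases hd : fr.dty
  · have hle := fr.le
    let L : Fin d := ⟨fr.m - 1, by omega⟩
    have hL : L.val < fr.m := by simp only [L]; omega
    have hne : ∀ k, fr.Gd k → k ≠ L := fun k hk e => by
      have := hk.2 hd
      simp only [e, L] at this
      omega
    obtain ⟨n, hn, π, h1, h2⟩ := wp_low ha.1 hL (hne a ha)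
    obtain ⟨n', hn', π', h3, h4⟩ := wp_rev hm ha.1 hL fun e => absurd e (hne a ha)
    refine ⟨_, mul_mem hn hn', _, h2.mul h4, by simp [h3.l, h1.rev.r], fun k hk hka => ?_⟩
    rw [Equiv.Perm.mul_apply, h3.o k hka (ne_rev_of_lt hk.1 hL) (ne_rev_of_lt hk.1 ha.1)
      (by rw [Fin.rev_rev]; exact hne k hk), h1.o k hka (hne k hk) (ne_rev_of_lt hk.1 ha.1)
      (ne_rev_of_lt hk.1 hL)]
  · obtain ⟨n, hn, π, h1, h2⟩ := wp_rev hm ha.1 ha.1 fun _ => hd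
    exact ⟨n, hn, π, h2, h1.l, fun k hk hka => h1.o k hka (ne_rev_of_lt hk.1 ha.1)
      (ne_rev_of_lt hk.1 ha.1) (by rwa [Fin.rev_rev])⟩

lemma exists_n0 (hm : 2 ≤ fr.m) : ∃ n ∈ fr.N, ∃ π, fr.Mo π n ∧ ∀ a, fr.Gd a → π a = a.rev := by
  have key : ∀ k : ℕ, ∃ n ∈ fr.N, ∃ π, fr.Mo π n ∧ ∀ a, fr.Gd a →
      (a.val < k → π a = a.rev) ∧ (k ≤ a.val → π a = a) := by
    intro k
    induction k with
    | zero => exact ⟨1, one_mem _, 1, mo_one, fun a _ => ⟨fun h => by omega, fun _ => rfl⟩⟩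
    | succ k ih =>
      obtain ⟨n, hn, π, h1, h2⟩ := ih
      by_cases h : ∃ a, fr.Gd a ∧ a.val = k
      · obtain ⟨a, ha, hk⟩ := h
        obtain ⟨n', hn', π', h3, h4, h5⟩ := exists_flip hm ha
        refine ⟨_, mul_mem hn hn', _, h1.mul h3, fun b hb => ?_⟩
        by_cases hba : b = a
        · rw [hba, Equiv.Perm.mul_apply, h4, h1.sg.1, (h2 a ha).2 hk.ge]
          exact ⟨fun _ => rfl, fun h => by omega⟩
        · have : b.val ≠ k := fun e => hba (Fin.ext (e.trans hk.symm))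
          rw [Equiv.Perm.mul_apply, h5 b hb hba]
          exact ⟨fun h => (h2 b hb).1 (by omega), fun h => (h2 b hb).2 (by omega)⟩
      · refine ⟨n, hn, π, h1, fun b hb => ?_⟩
        have : b.val ≠ k := fun e => h ⟨b, hb, e⟩
        exact ⟨fun h => (h2 b hb).1 (by omega), fun h => (h2 b hb).2 (by omega)⟩
  obtain ⟨n, hn, π, h1, h2⟩ := key d
  exact ⟨n, hn, π, h1, fun a ha => (h2 a ha).1 a.2⟩

lemma exists_trans (hm : 2 ≤ fr.m) {k : Fin d} (hk : k.val < fr.m) (ha : ¬ Md fr.m a)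
    (h1 : k ≤ a) (h2 : k ≤ a.rev) (h3 : a = k.rev → fr.Gd k) :
    ∃ n ∈ fr.N, ∃ π, fr.Mo π n ∧ π k = a ∧ ∀ j < k, π j = j := by
  by_cases h4 : k = a
  · exact ⟨1, one_mem _, 1, mo_one, h4, fun _ _ => rfl⟩
  by_cases h5 : a = k.rev
  · obtain ⟨n, hn, π, h6, h7, h8⟩ := exists_flip hm (h3 h5)
    exact ⟨n, hn, π, h6, h5 ▸ h7, fun j hj => h8 j ((h3 h5).mono hj.le) hj.ne⟩
  · obtain ⟨n, hn, π, h6, h7⟩ := wp_all hm ⟨not_md hk, ha, h4⟩ fun e => absurd e h5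
    exact ⟨n, hn, π, h7, h6.l, fun j hj => h6.o j hj.ne (hj.trans_le h1).ne
      (ne_rev_of_lt (lt_trans hj hk) hk) (hj.trans_le h2).ne⟩

end Fr

end Vale.Agent.P183SB
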